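import Mathlib
import Vale.Agent.P271.H987.ConeModel

/-!
# P271, block BRIDGE, part 1: smooth cones `SCone` (defined by a homogeneous ideal) and their charts
-/

open MvPolynomial Set Filter Metric Topology

namespace Vale.Agent.P271.Br

open Vale.Agent.P271.Cone

variable {n : ℕ}

/-! ### Polynomials as holomorphic functions -/

theorem contDiff_eval {N : ℕ} (P : MvPolynomial (Fin N) ℂ) {k : WithTop ℕ∞} :
    ContDiff ℂ k (fun x : Fin N → ℂ => eval x P) := by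
  induction P using MvPolynomial.induction_on with
  | C a => simpa using (contDiff_const : ContDiff ℂ k fun _ : Fin N → ℂ => a)
  | add p q hp hq => simpa using hp.add hq
  | mul_X p i hp => simpa using hp.mul (contDiff_apply ℂ ℂ i)

/-- The differential of a polynomial as a continuous linear form. -/
noncomputable def dL {N : ℕ} (P : MvPolynomial (Fin N) ℂ) (x : Fin N → ℂ) :
    (Fin N → ℂ) →L[ℂ] ℂ :=
  ∑ i, eval x (pderiv i P) • (ContinuousLinearMap.proj i : (Fin N → ℂ) →L[ℂ] ℂ)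

theorem dL_apply {N : ℕ} (P : MvPolynomial (Fin N) ℂ) (x v : Fin N → ℂ) :
    dL P x v = dpoly P x v := by
  simp [dL, dpoly]

theorem hasFDerivAt_eval {N : ℕ} (P : MvPolynomial (Fin N) ℂ) (x : Fin N → ℂ) :
    HasFDerivAt (fun x : Fin N → ℂ => eval x P) (dL P x) x := by
  induction P using MvPolynomial.induction_on with
  | C a =>
    simp only [eval_C]
    refine (hasFDerivAt_const a x).congr_fderiv ?_
    ext v
    simp [dL_apply, dpoly]
  | add p q hp hq =>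
    have h1 : HasFDerivAt (fun x : Fin N → ℂ => eval x p + eval x q) (dL p x + dL q x) x :=
      hp.add hq
    simp only [map_add]
    refine h1.congr_fderiv ?_
    ext v
    simp [dL_apply, dpoly, add_mul, Finset.sum_add_distrib]
  | mul_X p i hp =>
    have h0 : HasFDerivAt (fun x : Fin N → ℂ => x i)
        (ContinuousLinearMap.proj i : (Fin N → ℂ) →L[ℂ] ℂ) x :=
      (ContinuousLinearMap.proj i : (Fin N → ℂ) →L[ℂ] ℂ).hasFDerivAt
    have h1 : HasFDerivAt (fun x : Fin N → ℂ => eval x p * x i)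
        (eval x p • (ContinuousLinearMap.proj i : (Fin N → ℂ) →L[ℂ] ℂ) + x i • dL p x) x :=
      hp.mul h0
    simp only [map_mul, eval_X]
    refine h1.congr_fderiv ?_
    ext v
    simp only [FunLike.coe_smul, add_apply, Pi.smul_apply, ContinuousLinearMap.proj_apply,
      smul_eq_mul, dL_apply, dpoly, Derivation.leibniz, pderiv_X, map_add, map_mul, eval_X,
      Finset.mul_sum, Pi.single_apply]
    simp only [add_mul, Finset.sum_add_distrib]
    congr 1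
    · rw [Finset.sum_eq_single i]
      · simp
      · intro b _ hb
        simp [hb.symm]
      · simp
    · refine Finset.sum_congr rfl fun j _ => ?_
      ring

theorem fderiv_eval {N : ℕ} (P : MvPolynomial (Fin N) ℂ) (x : Fin N → ℂ) :
    fderiv ℂ (fun x : Fin N → ℂ => eval x P) x = dL P x :=
  (hasFDerivAt_eval P x).fderiv

/-! ### Smooth cones -/

/-- A weighted cone in `ℂ^N`, smooth of dimension `n+1` outside the vertex, with a free action of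
`ℂˣ`.  The ideal is not assumed to be prime. -/
structure SCone (n : ℕ) where
  /-- number of coordinates -/
  N : ℕ
  /-- weights -/
  w : Fin N → ℕ
  w_pos : ∀ i, 0 < w i
  /-- the ideal -/
  I : Ideal (MvPolynomial (Fin N) ℂ)
  homog : ∀ P ∈ I, ∀ d : ℕ, weightedHomogeneousComponent w d P ∈ I
  smooth : ∀ y : Fin N → ℂ, y ≠ 0 → (∀ P ∈ I, eval y P = 0) →
    ∃ (r : ℕ) (P : Fin r → MvPolynomial (Fin N) ℂ), r + (n + 1) = N ∧ (∀ j, P j ∈ I) ∧
      LinearIndependent ℂ (fun j => fun i => eval y (pderiv i (P j)) : Fin r → Fin N → ℂ) ∧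
      ∃ O : Set (Fin N → ℂ), IsOpen O ∧ y ∈ O ∧
        ∀ x ∈ O, (∀ j, eval x (P j) = 0) → ∀ Q ∈ I, eval x Q = 0
  free : ∀ y : Fin N → ℂ, y ≠ 0 → (∀ P ∈ I, eval y P = 0) →
    ∀ t : ℂ, t ≠ 0 → act w t y = y → t = 1
  nonempty : ∃ y : Fin N → ℂ, y ≠ 0 ∧ ∀ P ∈ I, eval y P = 0

namespace SCone

variable (X : SCone n)

/-- The closed cone. -/
def Y : Set (Fin X.N → ℂ) := {y | ∀ P ∈ X.I, eval y P = 0}

/-- The punctured cone. -/
def U : Set (Fin X.N → ℂ) := {y | y ≠ 0 ∧ ∀ P ∈ X.I, eval y P = 0}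

/-- The tangent space. -/
def tangent (y : Fin X.N → ℂ) : Submodule ℂ (Fin X.N → ℂ) where
  carrier := {v | ∀ P ∈ X.I, dpoly P y v = 0}
  add_mem' := by
    intro a b ha hb P hP
    have h1 := ha P hP
    have h2 := hb P hP
    rw [← dL_apply] at *
    rw [map_add, h1, h2, add_zero]
  zero_mem' := by
    intro P _
    simp [dpoly]
  smul_mem' := by
    intro c a ha P hP
    have h1 := ha P hP
    rw [← dL_apply] at *
    rw [map_smul, h1, smul_zero]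

end SCone

/-! ### Charts -/

/-- A holomorphic chart of `U` at `y`. -/
structure Chart (X : SCone n) (y : Fin X.N → ℂ) where
  /-- linear coordinates -/
  T : (Fin X.N → ℂ) →L[ℂ] (Fin (n + 1) → ℂ)
  /-- the parametrisation -/
  ψ : (Fin (n + 1) → ℂ) → (Fin X.N → ℂ)
  /-- radius -/
  ε : ℝ
  /-- the open subset of the ambient space -/
  V : Set (Fin X.N → ℂ)
  ε_pos : 0 < ε
  isOpen : IsOpen V
  mem : y ∈ V
  an : AnalyticOnNhd ℂ ψ (ball (T y) ε)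
  ψ_mem : ∀ ζ ∈ ball (T y) ε, ψ ζ ∈ X.U ∩ V
  T_ψ : ∀ ζ ∈ ball (T y) ε, T (ψ ζ) = ζ
  T_mem : ∀ x ∈ X.U ∩ V, T x ∈ ball (T y) ε
  ψ_T : ∀ x ∈ X.U ∩ V, ψ (T x) = x
  tangent_le : ∀ x ∈ X.U ∩ V, ∀ v ∈ X.tangent x, fderiv ℂ ψ (T x) (T v) = v

theorem exists_complement {N r : ℕ} (hr : r + (n + 1) = N)
    (A : (Fin N → ℂ) →L[ℂ] (Fin r → ℂ)) (hA : Function.Surjective A) :
    ∃ T : (Fin N → ℂ) →L[ℂ] (Fin (n + 1) → ℂ),
      ∃ e : (Fin N → ℂ) ≃L[ℂ] (Fin r → ℂ) × (Fin (n + 1) → ℂ), ∀ v, e v = (A v, T v) := by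
  have hdim : Module.finrank ℂ (LinearMap.ker A.toLinearMap) = n + 1 := by
    have h1 := LinearMap.finrank_range_add_finrank_ker A.toLinearMap
    have h2 : Module.finrank ℂ (LinearMap.range A.toLinearMap) = r := by
      rw [LinearMap.range_eq_top.2 hA]
      simp
    rw [h2] at h1
    simp at h1
    omega
  obtain ⟨π, hπ⟩ := LinearMap.exists_leftInverse_of_injective
    (LinearMap.ker A.toLinearMap).subtype (by simp)
  let e0 : LinearMap.ker A.toLinearMap ≃ₗ[ℂ] (Fin (n + 1) → ℂ) :=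
    LinearEquiv.ofFinrankEq _ _ (by rw [hdim]; simp)
  let T0 : (Fin N → ℂ) →ₗ[ℂ] (Fin (n + 1) → ℂ) := e0.toLinearMap.comp π
  let T : (Fin N → ℂ) →L[ℂ] (Fin (n + 1) → ℂ) := T0.toContinuousLinearMap
  have hinj : Function.Injective (A.toLinearMap.prod T0) := by
    rw [← LinearMap.ker_eq_bot, LinearMap.ker_eq_bot']
    intro v hv
    have hv' : (A v, T0 v) = 0 := hv
    rw [Prod.mk_eq_zero] at hv'
    have h1 : v ∈ LinearMap.ker A.toLinearMap := hv'.1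
    have h2 : π v = ⟨v, h1⟩ := by
      have := LinearMap.congr_fun hπ ⟨v, h1⟩
      simpa using this
    have h3 : e0 (π v) = 0 := hv'.2
    rw [h2] at h3
    have h4 := e0.map_eq_zero_iff.1 h3
    exact congrArg Subtype.val h4
  have hfr : Module.finrank ℂ (Fin N → ℂ) = Module.finrank ℂ ((Fin r → ℂ) × (Fin (n + 1) → ℂ)) := by
    simp [hr]
  let e1 := LinearMap.linearEquivOfInjective (A.toLinearMap.prod T0) hinj hfr
  refine ⟨T, e1.toContinuousLinearEquiv, fun v => ?_⟩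
  rfl

theorem surjective_of_li {N r : ℕ} (P : Fin r → MvPolynomial (Fin N) ℂ) (y : Fin N → ℂ)
    (hli : LinearIndependent ℂ (fun j => fun i => eval y (pderiv i (P j)) :
      Fin r → Fin N → ℂ)) :
    Function.Surjective (ContinuousLinearMap.pi (fun j => dL (P j) y)) := by
  set M : Matrix (Fin r) (Fin N) ℂ := Matrix.of fun j i => eval y (pderiv i (P j)) with hM
  have h1 : M.rank = r := by
    have := LinearIndependent.rank_matrix (M := M) hli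
    simpa using this
  have h2 : LinearMap.range M.mulVecLin = ⊤ := by
    apply Submodule.eq_top_of_finrank_eq
    rw [Matrix.rank] at h1
    rw [h1]
    simp
  intro b
  obtain ⟨v, hv⟩ := LinearMap.range_eq_top.1 h2 b
  refine ⟨v, ?_⟩
  rw [← hv]
  ext j
  simp [dL_apply, dpoly, hM, Matrix.mulVec, dotProduct]

theorem exists_chart (X : SCone n) {y : Fin X.N → ℂ} (hy : y ∈ X.U)
    {O : Set (Fin X.N → ℂ)} (hO : IsOpen O) (hyO : y ∈ O) :
    ∃ c : Chart X y, c.V ⊆ O := by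
  obtain ⟨r, P, hr, hvan, hli, O', hO', hyO', hP⟩ := X.smooth y hy.1 hy.2
  obtain ⟨T, e, he⟩ := exists_complement hr _ (surjective_of_li P y hli)
  set Θ : (Fin X.N → ℂ) → (Fin r → ℂ) × (Fin (n + 1) → ℂ) :=
    fun x => (fun j => eval x (P j), T x) with hΘ
  have hω : (⊤ : WithTop ℕ∞) ≠ 0 := by simp
  have hΘc : ContDiff ℂ ⊤ Θ := by
    refine ContDiff.prodMk ?_ T.contDiff
    exact contDiff_pi.2 fun j => contDiff_eval (P j)
  let DΘ : (Fin X.N → ℂ) → (Fin X.N → ℂ) →L[ℂ] (Fin r → ℂ) × (Fin (n + 1) → ℂ) := fun x =>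
    (ContinuousLinearMap.pi (fun j => dL (P j) x)).prod T
  have hΘd : ∀ x, HasFDerivAt Θ (DΘ x) x := by
    intro x
    refine HasFDerivAt.prodMk ?_ T.hasFDerivAt
    exact hasFDerivAt_pi.2 fun j => hasFDerivAt_eval (P j) x
  have hDe : DΘ y = (e : (Fin X.N → ℂ) →L[ℂ] (Fin r → ℂ) × (Fin (n + 1) → ℂ)) := by
    ext v
    · simp [DΘ, he]
    · simp [DΘ, he]
  have hΘe : HasFDerivAt Θ (e : (Fin X.N → ℂ) →L[ℂ] (Fin r → ℂ) × (Fin (n + 1) → ℂ)) y := by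
    rw [← hDe]
    exact hΘd y
  have hcd : ContDiffAt ℂ ⊤ Θ y := hΘc.contDiffAt
  let Φ := hcd.toOpenPartialHomeomorph Θ hΘe hω
  have hΦ : ∀ x, Φ x = Θ x := fun x => by
    rw [ContDiffAt.toOpenPartialHomeomorph_coe]
  have hyS : y ∈ Φ.source := hcd.mem_toOpenPartialHomeomorph_source hΘe hω
  have hsymm : ContDiffAt ℂ ⊤ Φ.symm (Θ y) := hcd.to_localInverse hΘe hω
  have hev : ∀ᶠ ξ in 𝓝 (Θ y), ContDiffAt ℂ ⊤ Φ.symm ξ := hsymm.eventually (by simp)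
  set S : Set (Fin X.N → ℂ) := Φ.source ∩ (O ∩ O' ∩ {x | x ≠ 0}) with hS
  have hSo : IsOpen S := Φ.open_source.inter ((hO.inter hO').inter isOpen_ne)
  have hyS' : y ∈ S := ⟨hyS, ⟨hyO, hyO'⟩, hy.1⟩
  have hPy : ∀ x ∈ X.U, ∀ j, eval x (P j) = 0 := fun x hx j => hx.2 (P j) (hvan j)
  have hΘU : ∀ x ∈ X.U, Θ x = (0, T x) := by
    intro x hx
    simp only [hΘ, Prod.mk.injEq, and_true]
    funext j
    exact hPy x hx j
  have hImg : IsOpen (Φ.target ∩ Φ.symm ⁻¹' S) := Φ.symm.isOpen_inter_preimage hSo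
  have hmemImg : Θ y ∈ Φ.target ∩ Φ.symm ⁻¹' S := by
    refine ⟨?_, ?_⟩
    · rw [← hΦ]
      exact Φ.map_source hyS
    · show Φ.symm (Θ y) ∈ S
      rw [← hΦ, Φ.left_inv hyS]
      exact hyS'
  obtain ⟨ε, hε, hball⟩ := Metric.mem_nhds_iff.1
    (Filter.inter_mem (hImg.mem_nhds hmemImg) hev)
  have hcdb' : ∀ ξ ∈ ball (Θ y) ε, AnalyticAt ℂ Φ.symm ξ := fun ξ hξ =>
    ContDiffAt.analyticAt (hball hξ).2
  have hcdb : ∀ ξ ∈ ball (Θ y) ε, DifferentiableAt ℂ Φ.symm ξ := fun ξ hξ =>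
    (hcdb' ξ hξ).differentiableAt
  have hb : ∀ ζ ∈ ball (T y) ε, ((0 : Fin r → ℂ), ζ) ∈ ball (Θ y) ε := by
    intro ζ hζ
    rw [hΘU y hy, mem_ball, Prod.dist_eq]
    simp only [dist_self]
    exact max_lt hε hζ
  refine ⟨⟨T, fun ζ => Φ.symm (0, ζ), ε, S ∩ Φ ⁻¹' (ball (Θ y) ε), hε, ?_, ?_, ?_, ?_, ?_, ?_,
    ?_, ?_⟩, ?_⟩
  · -- open
    have : S ∩ Φ ⁻¹' (ball (Θ y) ε) = S ∩ (Θ ⁻¹' (ball (Θ y) ε)) := by
      ext x
      simp only [mem_inter_iff, mem_preimage, hΦ]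
    rw [this]
    exact hSo.inter (isOpen_ball.preimage hΘc.continuous)
  · exact ⟨hyS', by simp [hΦ, hε]⟩
  · -- differentiable
    intro ζ hζ
    have h2 : AnalyticAt ℂ (fun ζ : Fin (n + 1) → ℂ => ((0 : Fin r → ℂ), ζ)) ζ :=
      (ContinuousLinearMap.inr ℂ (Fin r → ℂ) (Fin (n + 1) → ℂ)).analyticAt ζ
    exact (hcdb' _ (hb ζ hζ)).comp h2
  · intro ζ hζ
    have h1 := (hball (hb ζ hζ)).1
    have h2 : Φ (Φ.symm ((0 : Fin r → ℂ), ζ)) = (0, ζ) := Φ.right_inv h1.1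
    have h3 : Φ.symm ((0 : Fin r → ℂ), ζ) ∈ S := h1.2
    have h4 : ∀ j, eval (Φ.symm ((0 : Fin r → ℂ), ζ)) (P j) = 0 := by
      intro j
      have h5 : (Θ (Φ.symm ((0 : Fin r → ℂ), ζ))).1 j = 0 := by rw [← hΦ, h2]; rfl
      exact h5
    refine ⟨⟨h3.2.2, fun Q hQ => hP _ h3.2.1.2 h4 Q hQ⟩, h3, ?_⟩
    show Φ (Φ.symm ((0 : Fin r → ℂ), ζ)) ∈ ball (Θ y) ε
    rw [h2]
    exact hb ζ hζ
  · intro ζ hζ
    have h1 := (hball (hb ζ hζ)).1
    have h2 : Φ (Φ.symm ((0 : Fin r → ℂ), ζ)) = (0, ζ) := Φ.right_inv h1.1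
    have h3 : (Θ (Φ.symm ((0 : Fin r → ℂ), ζ))).2 = ζ := by rw [← hΦ, h2]
    exact h3
  · rintro x ⟨hxU, hxS, hxb⟩
    have hxb' : Θ x ∈ ball (Θ y) ε := by rw [← hΦ]; exact hxb
    rw [hΘU x hxU, hΘU y hy, mem_ball, Prod.dist_eq] at hxb'
    exact (max_lt_iff.1 hxb').2
  · rintro x ⟨hxU, hxS, hxb⟩
    show Φ.symm ((0 : Fin r → ℂ), T x) = x
    rw [← hΘU x hxU, ← hΦ, Φ.left_inv hxS.1]
  · rintro x ⟨hxU, hxS, hxb⟩ v hv
    have hxb' : Θ x ∈ ball (Θ y) ε := by rw [← hΦ]; exact hxb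
    have h1 : DifferentiableAt ℂ Φ.symm (Θ x) := hcdb _ hxb'
    have h2 : HasFDerivAt (fun x => Φ.symm (Θ x)) ((fderiv ℂ Φ.symm (Θ x)).comp (DΘ x)) x :=
      h1.hasFDerivAt.comp x (hΘd x)
    have h3 : (fun x => Φ.symm (Θ x)) =ᶠ[𝓝 x] id := by
      filter_upwards [Φ.open_source.mem_nhds hxS.1] with x' hx'
      rw [← hΦ, Φ.left_inv hx']
      rfl
    have h4 : (fderiv ℂ Φ.symm (Θ x)).comp (DΘ x) = ContinuousLinearMap.id ℂ _ :=
      h2.unique ((hasFDerivAt_id x).congr_of_eventuallyEq h3)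
    have h5 : DΘ x v = (0, T v) := by
      simp only [DΘ, ContinuousLinearMap.prod_apply, Prod.mk.injEq, and_true]
      funext j
      simp only [ContinuousLinearMap.coe_pi', dL_apply]
      exact hv (P j) (hvan j)
    have h6 : fderiv ℂ Φ.symm (Θ x) (0, T v) = v := by
      rw [← h5]
      exact congrArg (fun L : (Fin X.N → ℂ) →L[ℂ] (Fin X.N → ℂ) => L v) h4
    have h7 : HasFDerivAt (fun ζ : Fin (n + 1) → ℂ => Φ.symm ((0 : Fin r → ℂ), ζ))
        ((fderiv ℂ Φ.symm (Θ x)).comp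
          (ContinuousLinearMap.inr ℂ (Fin r → ℂ) (Fin (n + 1) → ℂ))) (T x) := by
      have h8 : HasFDerivAt Φ.symm (fderiv ℂ Φ.symm (Θ x)) ((0 : Fin r → ℂ), T x) := by
        rw [← hΘU x hxU]
        exact h1.hasFDerivAt
      exact h8.comp (T x)
        (ContinuousLinearMap.inr ℂ (Fin r → ℂ) (Fin (n + 1) → ℂ)).hasFDerivAt
    rw [h7.fderiv]
    simpa using h6
  · rintro x ⟨hxS, -⟩
    exact hxS.2.1.1

namespace Chart

variable {X : SCone n} {y : Fin X.N → ℂ} (c : Chart X y)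

theorem diffAt {ζ : Fin (n + 1) → ℂ} (hζ : ζ ∈ ball (c.T y) c.ε) :
    DifferentiableAt ℂ c.ψ ζ := (c.an ζ hζ).differentiableAt

theorem contAt {ζ : Fin (n + 1) → ℂ} (hζ : ζ ∈ ball (c.T y) c.ε) :
    ContinuousAt c.ψ ζ := (c.diffAt hζ).continuousAt

theorem T_fderiv {ζ : Fin (n + 1) → ℂ} (hζ : ζ ∈ ball (c.T y) c.ε) (w : Fin (n + 1) → ℂ) :
    c.T (fderiv ℂ c.ψ ζ w) = w := by
  have h1 : HasFDerivAt (fun ζ => c.T (c.ψ ζ)) (c.T.comp (fderiv ℂ c.ψ ζ)) ζ :=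
    c.T.hasFDerivAt.comp ζ (c.diffAt hζ).hasFDerivAt
  have h2 : (fun ζ => c.T (c.ψ ζ)) =ᶠ[𝓝 ζ] id := by
    filter_upwards [isOpen_ball.mem_nhds hζ] with ξ hξ using c.T_ψ ξ hξ
  have h3 := h1.unique ((hasFDerivAt_id ζ).congr_of_eventuallyEq h2)
  exact congrArg (fun L : (Fin (n + 1) → ℂ) →L[ℂ] (Fin (n + 1) → ℂ) => L w) h3

theorem fderiv_mem_tangent {ζ : Fin (n + 1) → ℂ} (hζ : ζ ∈ ball (c.T y) c.ε)
    (w : Fin (n + 1) → ℂ) : fderiv ℂ c.ψ ζ w ∈ X.tangent (c.ψ ζ) := by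
  intro P hP
  have h1 : HasFDerivAt (fun ζ => eval (c.ψ ζ) P) ((dL P (c.ψ ζ)).comp (fderiv ℂ c.ψ ζ)) ζ :=
    (hasFDerivAt_eval P (c.ψ ζ)).comp ζ (c.diffAt hζ).hasFDerivAt
  have h2 : (fun ζ => eval (c.ψ ζ) P) =ᶠ[𝓝 ζ] fun _ => 0 := by
    filter_upwards [isOpen_ball.mem_nhds hζ] with ξ hξ using (c.ψ_mem ξ hξ).1.2 P hP
  have h3 := h1.unique ((hasFDerivAt_const (0 : ℂ) ζ).congr_of_eventuallyEq h2)
  have h4 := congrArg (fun L : (Fin (n + 1) → ℂ) →L[ℂ] ℂ => L w) h3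
  simpa [dL_apply] using h4

theorem ψ_T' {x : Fin X.N → ℂ} (hx : x ∈ X.U ∩ c.V) : c.ψ (c.T x) = x := c.ψ_T x hx

theorem T_inj {x : Fin X.N → ℂ} (hx : x ∈ X.U ∩ c.V) {v : Fin X.N → ℂ} (hv : v ∈ X.tangent x)
    (h : c.T v = 0) : v = 0 := by
  have := c.tangent_le x hx v hv
  rw [h, map_zero] at this
  exact this.symm

/-- The linear coordinates of the chart identify the tangent space with `ℂ^{n+1}`. -/
noncomputable def tangentEquiv {x : Fin X.N → ℂ} (hx : x ∈ X.U ∩ c.V) :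
    X.tangent x ≃ₗ[ℂ] (Fin (n + 1) → ℂ) where
  toFun v := c.T v.1
  map_add' a b := by simp
  map_smul' a b := by simp
  invFun w := ⟨fderiv ℂ c.ψ (c.T x) w, by
    have := c.fderiv_mem_tangent (c.T_mem x hx) w
    rwa [c.ψ_T x hx] at this⟩
  left_inv v := Subtype.ext (c.tangent_le x hx v.1 v.2)
  right_inv w := c.T_fderiv (c.T_mem x hx) w

theorem mem_U_inter : y ∈ X.U → y ∈ X.U ∩ c.V := fun h => ⟨h, c.mem⟩

end Chart

theorem finrank_tangent (X : SCone n) {y : Fin X.N → ℂ} (hy : y ∈ X.U) :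
    Module.finrank ℂ (X.tangent y) = n + 1 := by
  obtain ⟨c, -⟩ := exists_chart X hy isOpen_univ (mem_univ _)
  rw [(c.tangentEquiv ⟨hy, c.mem⟩).finrank_eq]
  simp

/-! ### The identity theorem on `U` -/

/-- A function on the ambient space is holomorphic on `U` if all its compositions with charts
are analytic. -/
def HolU (X : SCone n) (f : (Fin X.N → ℂ) → ℂ) : Prop :=
  ∀ y ∈ X.U, ∃ c : Chart X y, AnalyticOnNhd ℂ (fun ζ => f (c.ψ ζ)) (ball (c.T y) c.ε)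

theorem holU_eval (X : SCone n) (P : MvPolynomial (Fin X.N) ℂ) :
    HolU X (fun x => eval x P) := by
  intro y hy
  obtain ⟨c, -⟩ := exists_chart X hy isOpen_univ (mem_univ _)
  refine ⟨c, fun ζ hζ => ?_⟩
  have h1 : AnalyticAt ℂ (fun x : Fin X.N → ℂ => eval x P) (c.ψ ζ) :=
    ContDiffAt.analyticAt (contDiff_eval P).contDiffAt
  exact h1.comp (c.an ζ hζ)

theorem identity_of_chart {X : SCone n} {y : Fin X.N → ℂ} (c : Chart X y)
    {f : (Fin X.N → ℂ) → ℂ} (hf : AnalyticOnNhd ℂ (fun ζ => f (c.ψ ζ)) (ball (c.T y) c.ε))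
    {x₀ : Fin X.N → ℂ} (hx₀ : x₀ ∈ X.U ∩ c.V) (h0 : ∀ᶠ x in 𝓝[X.U] x₀, f x = 0) :
    ∀ x ∈ X.U ∩ c.V, f x = 0 := by
  have h1 : (fun ζ => f (c.ψ ζ)) =ᶠ[𝓝 (c.T x₀)] 0 := by
    have h2 : Tendsto c.ψ (𝓝 (c.T x₀)) (𝓝[X.U] x₀) := by
      refine tendsto_nhdsWithin_iff.2 ⟨?_, ?_⟩
      · have := c.contAt (c.T_mem x₀ hx₀)
        rwa [ContinuousAt, c.ψ_T x₀ hx₀] at this
      · filter_upwards [isOpen_ball.mem_nhds (c.T_mem x₀ hx₀)] with ξ hξ using (c.ψ_mem ξ hξ).1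
    exact h2.eventually h0
  have h3 := hf.eqOn_zero_of_preconnected_of_eventuallyEq_zero
    (convex_ball _ _).isPreconnected (c.T_mem x₀ hx₀) h1
  intro x hx
  have h4 := h3 (c.T_mem x hx)
  simpa [c.ψ_T x hx] using h4

theorem identity (X : SCone n) (hconn : IsPreconnected X.U) {f : (Fin X.N → ℂ) → ℂ} (hf : HolU X f)
    {x₀ : Fin X.N → ℂ} (hx₀ : x₀ ∈ X.U) (h0 : ∀ᶠ x in 𝓝[X.U] x₀, f x = 0) :
    ∀ x ∈ X.U, f x = 0 := by
  have hpc : PreconnectedSpace X.U := isPreconnected_iff_preconnectedSpace.1 hconn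
  set A : Set X.U := {y | ∀ᶠ x in 𝓝[X.U] (y : Fin X.N → ℂ), f x = 0} with hA
  have hAsub : ∀ y : X.U, y ∈ A ↔ ∀ᶠ x : X.U in 𝓝 y, f x = 0 := by
    intro y
    rw [hA, mem_ofPred_eq, nhds_subtype_eq_comap, eventually_comap, nhdsWithin,
      eventually_inf_principal]
    constructor
    · intro h
      filter_upwards [h] with x hx a ha
      rw [ha]
      exact hx (ha ▸ a.2)
    · intro h
      filter_upwards [h] with x hx hxU
      exact hx ⟨x, hxU⟩ rfl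
  have hopen : IsOpen A := by
    rw [isOpen_iff_mem_nhds]
    intro y hy
    have := (hAsub y).1 hy
    filter_upwards [eventually_eventually_nhds.2 this] with z hz using (hAsub z).2 hz
  have hclosed : IsClosed A := by
    rw [← closure_subset_iff_isClosed]
    intro y hy
    obtain ⟨c, hc⟩ := hf y.1 y.2
    have h1 : ((fun z : X.U => (z : Fin X.N → ℂ)) ⁻¹' c.V) ∈ 𝓝 y :=
      continuous_subtype_val.continuousAt.preimage_mem_nhds (c.isOpen.mem_nhds c.mem)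
    obtain ⟨z, hz1, hz2⟩ := mem_closure_iff_nhds.1 hy _ h1
    have h2 := identity_of_chart c hc ⟨z.2, hz1⟩ hz2
    refine (hAsub y).2 ?_
    filter_upwards [h1] with x hx using h2 _ ⟨x.2, hx⟩
  have hne : A.Nonempty := ⟨⟨x₀, hx₀⟩, h0⟩
  have huniv : A = univ := IsClopen.eq_univ ⟨hclosed, hopen⟩ hne
  intro x hx
  have h3 : (⟨x, hx⟩ : X.U) ∈ A := by rw [huniv]; trivial
  exact ((hAsub _).1 h3).self_of_nhds

end Vale.Agent.P271.Br
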