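import Mathlib
import Vale.Agent.P271.H311.Chart

/-!
# P271, block BRIDGE, part 2: the vanishing ideal of the cone is a homogeneous prime ideal
-/

open MvPolynomial Set Filter Metric Topology

namespace Vale.Agent.P271.Br

open Vale.Agent.P271.Cone

variable {n : ℕ}

/-! ### The action -/

theorem act_one {N : ℕ} (w : Fin N → ℕ) (y : Fin N → ℂ) : act w 1 y = y := by
  funext i
  simp [act]

theorem act_act {N : ℕ} (w : Fin N → ℕ) (s t : ℂ) (y : Fin N → ℂ) :
    act w s (act w t y) = act w (s * t) y := by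
  funext i
  simp [act, mul_pow]
  ring

theorem act_zero {N : ℕ} {w : Fin N → ℕ} (hw : ∀ i, 0 < w i) (y : Fin N → ℂ) :
    act w 0 y = 0 := by
  funext i
  simp [act, (hw i).ne']

theorem continuous_act {N : ℕ} (w : Fin N → ℕ) :
    Continuous (fun p : ℂ × (Fin N → ℂ) => act w p.1 p.2) := by
  unfold act
  fun_prop

theorem act_ne_zero {N : ℕ} {w : Fin N → ℕ} {t : ℂ} (ht : t ≠ 0) {y : Fin N → ℂ} (hy : y ≠ 0) :
    act w t y ≠ 0 := by
  intro h
  apply hy
  funext i
  have := congrFun h i
  simpa [act, ht] using this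

theorem eval_act {N : ℕ} {w : Fin N → ℕ} {P : MvPolynomial (Fin N) ℂ} {d : ℕ}
    (hP : IsWeightedHomogeneous w P d) (t : ℂ) (y : Fin N → ℂ) :
    eval (act w t y) P = t ^ d * eval y P := by
  rw [eval_eq', eval_eq', Finset.mul_sum]
  refine Finset.sum_congr rfl fun m hm => ?_
  have h1 : Finsupp.weight w m = d := hP (mem_support_iff.1 hm)
  have h2 : ∑ i, w i * m i = d := by
    rw [← h1, Finsupp.weight_apply, Finsupp.sum_fintype _ _ (by simp)]
    simp [mul_comm]
  have h3 : ∏ i, act w t y i ^ m i = t ^ d * ∏ i, y i ^ m i := by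
    simp only [act, mul_pow, Finset.prod_mul_distrib, ← pow_mul]
    rw [Finset.prod_pow_eq_pow_sum, h2]
  rw [h3]
  ring

/-- The components of a polynomial under the action. -/
theorem eval_act_sum {N : ℕ} (w : Fin N → ℕ) (P : MvPolynomial (Fin N) ℂ) (t : ℂ)
    (y : Fin N → ℂ) {D : ℕ} (hD : ∀ d, D ≤ d → weightedHomogeneousComponent w d P = 0) :
    eval (act w t y) P =
      ∑ d ∈ Finset.range D, t ^ d * eval y (weightedHomogeneousComponent w d P) := by
  have h1 : P = ∑ d ∈ Finset.range D, weightedHomogeneousComponent w d P := by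
    conv_lhs => rw [← sum_weightedHomogeneousComponent w P]
    rw [finsum_eq_sum_of_support_subset]
    intro d hd
    rw [Function.mem_support] at hd
    rw [Finset.coe_range, mem_Iio]
    by_contra h
    exact hd (hD d (not_lt.1 h))
  conv_lhs => rw [h1]
  rw [map_sum]
  exact Finset.sum_congr rfl fun d _ =>
    eval_act (weightedHomogeneousComponent_isWeightedHomogeneous (w := w) d P) t y

theorem exists_component_bound {N : ℕ} (w : Fin N → ℕ) (P : MvPolynomial (Fin N) ℂ) :
    ∃ D : ℕ, ∀ d, D ≤ d → weightedHomogeneousComponent w d P = 0 := by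
  obtain ⟨D, hD⟩ := (weightedHomogeneousComponent_finsupp (w := w) P).bddAbove
  refine ⟨D + 1, fun d hd => ?_⟩
  by_contra h
  have := hD (show d ∈ Function.support _ from h)
  omega

/-- If a polynomial vanishes on the orbit of `x` then so do its components. -/
theorem eval_component_eq_zero {N : ℕ} (w : Fin N → ℕ) (P : MvPolynomial (Fin N) ℂ)
    (x : Fin N → ℂ) (h : ∀ t : ℂ, t ≠ 0 → eval (act w t x) P = 0) (d : ℕ) :
    eval x (weightedHomogeneousComponent w d P) = 0 := by
  obtain ⟨D, hD⟩ := exists_component_bound w P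
  by_cases hd : D ≤ d
  · rw [hD d hd, map_zero]
  · let q : Polynomial ℂ := ∑ k ∈ Finset.range D,
      Polynomial.C (eval x (weightedHomogeneousComponent w k P)) * Polynomial.X ^ k
    have hq : ∀ t : ℂ, t ≠ 0 → q.eval t = 0 := by
      intro t ht
      have h1 := h t ht
      rw [eval_act_sum w P t x hD] at h1
      simp only [q, Polynomial.eval_finsetSum, Polynomial.eval_mul, Polynomial.eval_C,
        Polynomial.eval_pow, Polynomial.eval_X]
      rw [← h1]
      exact Finset.sum_congr rfl fun k _ => mul_comm _ _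
    have hq0 : q = 0 := by
      refine Polynomial.eq_zero_of_infinite_isRoot q ?_
      refine Set.Infinite.mono (s := {t : ℂ | t ≠ 0}) (fun t ht => hq t ht) ?_
      exact (Set.finite_singleton (0 : ℂ)).infinite_compl
    have h2 : q.coeff d = eval x (weightedHomogeneousComponent w d P) := by
      simp only [q, Polynomial.finsetSum_coeff, Polynomial.coeff_C_mul, Polynomial.coeff_X_pow]
      rw [Finset.sum_eq_single d]
      · simp
      · intro b _ hb
        simp [hb.symm]
      · intro h
        exact absurd (Finset.mem_range.2 (not_le.1 hd)) h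
    rw [← h2, hq0, Polynomial.coeff_zero]


namespace SCone

variable (X : SCone n)

theorem act_mem_Y (t : ℂ) {y : Fin X.N → ℂ} (hy : y ∈ X.Y) : act X.w t y ∈ X.Y := by
  intro P hP
  obtain ⟨D, hD⟩ := exists_component_bound X.w P
  rw [eval_act_sum X.w P t y hD]
  refine Finset.sum_eq_zero fun d _ => ?_
  rw [hy _ (X.homog P hP d), mul_zero]

theorem act_mem_U {t : ℂ} (ht : t ≠ 0) {y : Fin X.N → ℂ} (hy : y ∈ X.U) :
    act X.w t y ∈ X.U := ⟨act_ne_zero ht hy.1, act_mem_Y X t hy.2⟩

theorem act_mem_U_iff {t : ℂ} (ht : t ≠ 0) {y : Fin X.N → ℂ} :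
    act X.w t y ∈ X.U ↔ y ∈ X.U := by
  refine ⟨fun h => ?_, act_mem_U X ht⟩
  have := act_mem_U X (inv_ne_zero ht) h
  rwa [act_act, inv_mul_cancel₀ ht, act_one] at this

theorem U_nonempty : X.U.Nonempty := X.nonempty

/-- `0` is a limit of points of `U`. -/
theorem eval_zero_of_U {P : MvPolynomial (Fin X.N) ℂ} (h : ∀ x ∈ X.U, eval x P = 0) :
    eval 0 P = 0 := by
  obtain ⟨y, hy⟩ := U_nonempty X
  have hc : Continuous fun t : ℂ => eval (act X.w t y) P := by
    have h1 : Continuous fun t : ℂ => act X.w t y :=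
      (continuous_act X.w).comp (by fun_prop : Continuous fun t : ℂ => (t, y))
    exact (contDiff_eval (k := 0) P).continuous.comp h1
  have h1 : Tendsto (fun t : ℂ => eval (act X.w t y) P) (𝓝[≠] 0) (𝓝 (eval (act X.w 0 y) P)) :=
    hc.continuousAt.continuousWithinAt
  have h2 : Tendsto (fun t : ℂ => eval (act X.w t y) P) (𝓝[≠] 0) (𝓝 0) := by
    refine tendsto_const_nhds.congr' ?_
    filter_upwards [self_mem_nhdsWithin] with t ht
    exact (h _ (act_mem_U X ht hy)).symm
  have h3 := tendsto_nhds_unique h1 h2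
  rwa [act_zero X.w_pos] at h3

theorem zero_mem_Y : (0 : Fin X.N → ℂ) ∈ X.Y := fun P hP =>
  eval_zero_of_U X fun x hx => hx.2 P hP

theorem vanish_Y_of_U {P : MvPolynomial (Fin X.N) ℂ} (h : ∀ x ∈ X.U, eval x P = 0) :
    ∀ x ∈ X.Y, eval x P = 0 := by
  intro x hx
  by_cases h0 : x = 0
  · rw [h0]
    exact eval_zero_of_U X h
  · exact h x ⟨h0, hx⟩

end SCone

/-! ### Prime cones -/

/-- A smooth cone with a prime ideal: the affine cone over a smooth projective variety. -/
structure PCone (n : ℕ) extends SCone n where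
  prime : I.IsPrime

namespace PCone

variable (X : PCone n)

instance : X.I.IsPrime := X.prime

/-- The closed cone. -/
abbrev Y : Set (Fin X.N → ℂ) := X.toSCone.Y

/-- The punctured cone. -/
abbrev U : Set (Fin X.N → ℂ) := X.toSCone.U

/-- The tangent space. -/
abbrev tangent (y : Fin X.N → ℂ) : Submodule ℂ (Fin X.N → ℂ) := X.toSCone.tangent y

/-- Nullstellensatz: the ideal consists of the polynomials vanishing on the cone. -/
theorem mem_I_iff {P : MvPolynomial (Fin X.N) ℂ} : P ∈ X.I ↔ ∀ x ∈ X.Y, eval x P = 0 := by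
  constructor
  · exact fun h x hx => hx P h
  · intro h
    have h1 : P ∈ vanishingIdeal ℂ (zeroLocus ℂ X.I) := by
      rw [mem_vanishingIdeal_iff]
      intro x hx
      rw [mem_zeroLocus_iff] at hx
      have := h x (fun Q hQ => by simpa using hx Q hQ)
      simpa using this
    rw [vanishingIdeal_zeroLocus_eq_radical, X.prime.isRadical.radical] at h1
    exact h1

theorem mem_I_iff_U {P : MvPolynomial (Fin X.N) ℂ} : P ∈ X.I ↔ ∀ x ∈ X.U, eval x P = 0 :=
  ⟨fun h x hx => hx.2 P h, fun h => X.mem_I_iff.2 (X.toSCone.vanish_Y_of_U h)⟩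

end PCone

/-! ### The cone of a polarised manifold -/

section OfManifold

variable (X : PolarizedManifold n)

theorem act_mem_Y (t : ℂ) {y : Fin X.N → ℂ} (hy : y ∈ X.Y) :
    act X.w t y ∈ X.Y := by
  intro P hP
  obtain ⟨d, hd⟩ := X.homogeneous P hP
  rw [eval_act hd, hy P hP, mul_zero]

theorem eqs_mem_vanId {P : MvPolynomial (Fin X.N) ℂ} (hP : P ∈ X.eqs) :
    P ∈ vanishingIdeal ℂ X.Y := by
  rw [mem_vanishingIdeal_iff]
  intro x hx
  simpa using hx P hP

theorem mem_vanId {P : MvPolynomial (Fin X.N) ℂ} :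
    P ∈ vanishingIdeal ℂ X.Y ↔ ∀ x ∈ X.Y, eval x P = 0 := by
  rw [mem_vanishingIdeal_iff]
  simp

/-- The smooth cone of a polarised manifold; its ideal is the vanishing ideal of `Y`. -/
noncomputable def toSCone : SCone n where
  N := X.N
  w := X.w
  w_pos := X.w_pos
  I := vanishingIdeal ℂ X.Y
  homog := by
    intro P hP d
    rw [mem_vanId] at hP ⊢
    intro x hx
    exact eval_component_eq_zero X.w P x (fun t _ => hP _ (act_mem_Y X t hx)) d
  smooth := by
    intro y hy0 hy
    obtain ⟨r, P, hr, hvan, hli, O, hO, hyO, hP⟩ := X.smooth y hy0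
      (fun P hP => hy P (eqs_mem_vanId X hP))
    refine ⟨r, P, hr, fun j => (mem_vanId X).2 (hvan j), hli, O, hO, hyO, fun x hx h Q hQ => ?_⟩
    exact (mem_vanId X).1 hQ x (hP x hx h)
  free := by
    intro y hy0 hy
    exact X.free y hy0 (fun P hP => hy P (eqs_mem_vanId X hP))
  nonempty := by
    obtain ⟨y, hy⟩ := X.connected.nonempty
    exact ⟨y, hy.1, fun P hP => (mem_vanId X).1 hP y hy.2⟩

theorem toSCone_Y : (toSCone X).Y = X.Y := by
  ext y
  constructor
  · exact fun h P hP => h P (eqs_mem_vanId X hP)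
  · exact fun h P hP => (mem_vanId X).1 hP y h

theorem toSCone_U : (toSCone X).U = X.U := by
  ext y
  constructor
  · exact fun h => ⟨h.1, fun P hP => h.2 P (eqs_mem_vanId X hP)⟩
  · exact fun h => ⟨h.1, fun P hP => (mem_vanId X).1 hP y h.2⟩

theorem toSCone_tangent (y : Fin X.N → ℂ) : (toSCone X).tangent y = X.tangent y := by
  ext v
  constructor
  · exact fun h P hP => h P ((mem_vanId X).2 hP)
  · exact fun h P hP => h P ((mem_vanId X).1 hP)

theorem isPreconnected_toSCone_U : IsPreconnected (toSCone X).U := by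
  rw [toSCone_U]
  exact X.connected.isPreconnected

/-- A smooth cone with radical ideal whose punctured cone is connected is prime. -/
theorem prime_of_connected (C : SCone n) (hrad : ∀ P, (∀ x ∈ C.Y, eval x P = 0) → P ∈ C.I)
    (hconn : IsPreconnected C.U) : C.I.IsPrime := by
  rw [Ideal.isPrime_iff]
  constructor
  · rw [Ne, Ideal.eq_top_iff_one]
    intro h
    have := C.zero_mem_Y 1 h
    simp at this
  · intro f g hfg
    by_contra hcon
    push Not at hcon
    obtain ⟨hf, hg⟩ := hcon
    have hf' : ¬ ∀ x ∈ C.U, eval x f = 0 := fun h => hf (hrad f (C.vanish_Y_of_U h))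
    push Not at hf'
    obtain ⟨x₀, hx₀, hfx⟩ := hf'
    apply hg
    refine hrad g (C.vanish_Y_of_U ?_)
    refine identity C hconn (holU_eval C g) hx₀ ?_
    have h1 : ∀ᶠ x in 𝓝[C.U] x₀, eval x f ≠ 0 :=
      ((contDiff_eval (k := 0) f).continuous.continuousAt.eventually_ne hfx).filter_mono
        nhdsWithin_le_nhds
    filter_upwards [h1, self_mem_nhdsWithin] with x hx hxU
    have h2 := hxU.2 _ hfg
    rw [map_mul] at h2
    exact (mul_eq_zero.1 h2).resolve_left hx

/-- The prime cone of a polarised manifold. -/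
noncomputable def toPCone : PCone n where
  toSCone := toSCone X
  prime := prime_of_connected (toSCone X)
    (fun P hP => (mem_vanId X).2 (by rw [← toSCone_Y X]; exact hP)) (isPreconnected_toSCone_U X)

end OfManifold

end Vale.Agent.P271.Br
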