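import Mathlib
import Vale.Agent.P271.H311.Prime

/-!
# P271, block BRIDGE, part 3: the coordinate ring is regular of dimension `n+1` off the vertex
-/

open MvPolynomial Set Filter Metric Topology

namespace Vale.Agent.P271.Br

open Vale.Agent.P271.Cone

variable {n : ℕ}

/-- The linear form `T_i` as a polynomial. -/
noncomputable def linPoly {N : ℕ} (T : (Fin N → ℂ) →L[ℂ] (Fin (n + 1) → ℂ)) (i : Fin (n + 1)) :
    MvPolynomial (Fin N) ℂ := ∑ k, C (T (Pi.single k 1) i) * X k

theorem eval_linPoly {N : ℕ} (T : (Fin N → ℂ) →L[ℂ] (Fin (n + 1) → ℂ)) (i : Fin (n + 1))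
    (x : Fin N → ℂ) : eval x (linPoly T i) = T x i := by
  have h1 : x = ∑ k, x k • (Pi.single k 1 : Fin N → ℂ) := by
    funext j
    simp [Finset.sum_apply, Pi.single_apply]
  conv_rhs => rw [h1, map_sum]
  simp [linPoly, mul_comm]

theorem dpoly_linPoly {N : ℕ} (T : (Fin N → ℂ) →L[ℂ] (Fin (n + 1) → ℂ)) (i : Fin (n + 1))
    (x v : Fin N → ℂ) : dpoly (linPoly T i) x v = T v i := by
  have h1 := hasFDerivAt_eval (linPoly T i) x
  have h2 : HasFDerivAt (fun x : Fin N → ℂ => eval x (linPoly T i))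
      ((ContinuousLinearMap.proj i : (Fin (n + 1) → ℂ) →L[ℂ] ℂ).comp T) x := by
    simp only [eval_linPoly]
    exact ((ContinuousLinearMap.proj i : (Fin (n + 1) → ℂ) →L[ℂ] ℂ).comp T).hasFDerivAt
  have h3 := h1.unique h2
  rw [← dL_apply, h3]
  rfl

theorem dpoly_mul_X {N : ℕ} (P : MvPolynomial (Fin N) ℂ) (k : Fin N) (y v : Fin N → ℂ) :
    dpoly (P * X k) y v = eval y P * v k + y k * dpoly P y v := by
  have h0 : HasFDerivAt (fun x : Fin N → ℂ => x k)
      (ContinuousLinearMap.proj k : (Fin N → ℂ) →L[ℂ] ℂ) y :=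
    (ContinuousLinearMap.proj k : (Fin N → ℂ) →L[ℂ] ℂ).hasFDerivAt
  have h1 : HasFDerivAt (fun x : Fin N → ℂ => eval x P * x k)
      (eval y P • (ContinuousLinearMap.proj k : (Fin N → ℂ) →L[ℂ] ℂ) + y k • dL P y) y :=
    (hasFDerivAt_eval P y).mul h0
  have h2 := hasFDerivAt_eval (P * X k) y
  simp only [map_mul, eval_X] at h2
  have h3 := h2.unique h1
  rw [← dL_apply, h3]
  simp [dL_apply]

theorem dpoly_add {N : ℕ} (P Q : MvPolynomial (Fin N) ℂ) (y v : Fin N → ℂ) :
    dpoly (P + Q) y v = dpoly P y v + dpoly Q y v := by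
  simp [dpoly, add_mul, Finset.sum_add_distrib]

theorem dpoly_C {N : ℕ} (a : ℂ) (y v : Fin N → ℂ) : dpoly (C a) y v = 0 := by
  simp [dpoly]

namespace SCone

variable (X : SCone n)

/-- The coordinate ring. -/
abbrev R : Type := MvPolynomial (Fin X.N) ℂ ⧸ X.I

theorem mem_Y {y : Fin X.N → ℂ} (hy : y ∈ X.U) : y ∈ X.Y := hy.2

/-- Evaluation at a point of the cone. -/
noncomputable def pt (y : Fin X.N → ℂ) (hy : y ∈ X.Y) : X.R →ₐ[ℂ] ℂ :=
  Ideal.Quotient.liftₐ X.I (aeval y) (fun P hP => by simpa using hy P hP)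

theorem pt_mk {y : Fin X.N → ℂ} (hy : y ∈ X.Y) (P : MvPolynomial (Fin X.N) ℂ) :
    X.pt y hy (Ideal.Quotient.mk X.I P) = eval y P := by
  simp [pt]

/-- The maximal ideal of a point. -/
noncomputable def mI (y : Fin X.N → ℂ) (hy : y ∈ X.Y) : Ideal X.R := RingHom.ker (X.pt y hy)

theorem mem_mI {y : Fin X.N → ℂ} (hy : y ∈ X.Y) {a : X.R} : a ∈ X.mI y hy ↔ X.pt y hy a = 0 :=
  Iff.rfl

instance mI_isMaximal (y : Fin X.N → ℂ) (hy : y ∈ X.Y) : (X.mI y hy).IsMaximal :=
  RingHom.ker_isMaximal_of_surjective _ (fun c => ⟨algebraMap ℂ X.R c, by simp⟩)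

/-- The maximal ideal of a point of `U` is generated, modulo its square, by the chart
coordinates. -/
theorem mI_le {y : Fin X.N → ℂ} (hy : y ∈ X.U) (c : Chart X y) :
    X.mI y (X.mem_Y hy) ≤ Ideal.span (Set.range fun i : Fin (n + 1) =>
      Ideal.Quotient.mk X.I (linPoly c.T i) - algebraMap ℂ X.R (c.T y i)) ⊔ (X.mI y (X.mem_Y hy)) ^ 2 := by
  set p := X.mI y (X.mem_Y hy) with hp
  set τ : Fin (n + 1) → X.R := fun i =>
    Ideal.Quotient.mk X.I (linPoly c.T i) - algebraMap ℂ X.R (c.T y i) with hτ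
  have hτp : ∀ i, τ i ∈ p := by
    intro i
    rw [hp, mem_mI]
    simp only [hτ, map_sub, pt_mk, eval_linPoly, AlgHom.commutes]
    simp
  by_contra hcon
  obtain ⟨b, hb, hbN⟩ := SetLike.not_le_iff_exists.1 hcon
  set M : Submodule ℂ X.R := (Ideal.span (Set.range τ) ⊔ p ^ 2).restrictScalars ℂ ⊔
    Submodule.span ℂ {1} with hM
  have hNp : Ideal.span (Set.range τ) ⊔ p ^ 2 ≤ p := by
    refine sup_le (Ideal.span_le.2 ?_) (Ideal.pow_le_self two_ne_zero)
    rintro _ ⟨i, rfl⟩
    exact hτp i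
  have hbM : b ∉ M := by
    intro hbM
    obtain ⟨m, hm, z, hz, hmz⟩ := Submodule.mem_sup.1 hbM
    obtain ⟨r, rfl⟩ := Submodule.mem_span_singleton.1 hz
    have h1 : X.pt y (X.mem_Y hy) m = 0 := hNp hm
    have h2 : X.pt y (X.mem_Y hy) b = 0 := hb
    have h3 : (r • (1 : X.R)) = algebraMap ℂ X.R r := (Algebra.algebraMap_eq_smul_one r).symm
    rw [h3] at hmz
    rw [← hmz, map_add, h1, zero_add, AlgHom.commutes] at h2
    have h4 : r = 0 := h2
    rw [h4, map_zero, add_zero] at hmz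
    exact hbN (hmz ▸ hm)
  obtain ⟨ℓ, hℓb, hℓM⟩ := Submodule.exists_le_ker_of_notMem hbM
  have hℓN : ∀ a ∈ Ideal.span (Set.range τ) ⊔ p ^ 2, ℓ a = 0 := fun a ha =>
    hℓM (Submodule.mem_sup_left ha)
  have hsm : ∀ (r : ℂ) (a : X.R), ℓ (algebraMap ℂ X.R r * a) = r * ℓ a := by
    intro r a
    have h1 : algebraMap ℂ X.R r * a = r • a := (Algebra.smul_def r a).symm
    rw [h1]
    exact ℓ.map_smul r a
  have hℓ1 : ∀ r : ℂ, ℓ (algebraMap ℂ X.R r) = 0 := by
    intro r
    have h1 := hsm r 1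
    rw [mul_one, (hℓM (Submodule.mem_sup_right (Submodule.mem_span_singleton_self 1)) :
      ℓ 1 = 0), mul_zero] at h1
    exact h1
  set v : Fin X.N → ℂ := fun k => ℓ (Ideal.Quotient.mk X.I (MvPolynomial.X k)) with hv
  have key : ∀ P : MvPolynomial (Fin X.N) ℂ, ℓ (Ideal.Quotient.mk X.I P) = dpoly P y v := by
    intro P
    induction P using MvPolynomial.induction_on with
    | C a =>
      rw [dpoly_C]
      exact hℓ1 a
    | add P Q hP hQ => rw [map_add, map_add, hP, hQ, dpoly_add]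
    | mul_X P k hP =>
      have h1 : Ideal.Quotient.mk X.I (P * MvPolynomial.X k) =
          (Ideal.Quotient.mk X.I P - algebraMap ℂ X.R (eval y P)) *
            (Ideal.Quotient.mk X.I (MvPolynomial.X k) - algebraMap ℂ X.R (y k)) +
          algebraMap ℂ X.R (eval y P) * Ideal.Quotient.mk X.I (MvPolynomial.X k) +
          algebraMap ℂ X.R (y k) * Ideal.Quotient.mk X.I P -
            algebraMap ℂ X.R (eval y P * y k) := by
        simp only [map_mul]
        ring
      have h2 : (Ideal.Quotient.mk X.I P - algebraMap ℂ X.R (eval y P)) *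
            (Ideal.Quotient.mk X.I (MvPolynomial.X k) - algebraMap ℂ X.R (y k)) ∈
          Ideal.span (Set.range τ) ⊔ p ^ 2 := by
        refine Submodule.mem_sup_right ?_
        rw [pow_two]
        refine Ideal.mul_mem_mul ?_ ?_
        · rw [hp, mem_mI, map_sub, pt_mk, AlgHom.commutes]
          simp
        · rw [hp, mem_mI, map_sub, pt_mk, AlgHom.commutes, eval_X]
          simp
      rw [h1, map_sub, map_add, map_add, hℓN _ h2, hsm, hsm, hP, hℓ1, dpoly_mul_X]
      simp [hv]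
  have hvt : v ∈ X.tangent y := by
    intro P hP
    rw [← key P, Ideal.Quotient.eq_zero_iff_mem.2 hP, map_zero]
  have hTv : c.T v = 0 := by
    funext i
    have h1 := key (linPoly c.T i)
    rw [dpoly_linPoly] at h1
    rw [← h1, Pi.zero_apply]
    have h2 : ℓ (τ i) = 0 := hℓN _ (Submodule.mem_sup_left (Ideal.subset_span ⟨i, rfl⟩))
    simp only [hτ, map_sub, hℓ1, sub_zero] at h2
    exact h2
  have hv0 : v = 0 := c.T_inj ⟨hy, c.mem⟩ hvt hTv
  apply hℓb
  obtain ⟨P, rfl⟩ := Ideal.Quotient.mk_surjective b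
  rw [key P, hv0]
  simp [dpoly]

/-! ### The chain of slices -/

section Slice

variable {X} {y : Fin X.N → ℂ} (c : Chart X y)

/-- Replace the first `i` coordinates by those of the centre of the chart. -/
noncomputable def slice (i : ℕ) (ζ : Fin (n + 1) → ℂ) : Fin (n + 1) → ℂ :=
  fun j => if (j : ℕ) < i then c.T y j else ζ j

theorem slice_center (i : ℕ) : slice c i (c.T y) = c.T y := by
  funext j
  simp [slice]

theorem slice_mem {i : ℕ} {ζ : Fin (n + 1) → ℂ} {δ : ℝ} (hζ : ζ ∈ ball (c.T y) δ) :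
    slice c i ζ ∈ ball (c.T y) δ := by
  have hδ : 0 < δ := dist_nonneg.trans_lt hζ
  rw [mem_ball, dist_pi_lt_iff hδ] at hζ ⊢
  intro j
  by_cases h : (j : ℕ) < i
  · simp [slice, h, hδ]
  · simpa [slice, h] using hζ j

theorem analyticAt_slice (i : ℕ) (ζ : Fin (n + 1) → ℂ) : AnalyticAt ℂ (slice c i) ζ := by
  have h1 : slice c i = fun ζ => (fun j : Fin (n + 1) => if (j : ℕ) < i then c.T y j else 0) +
      (ContinuousLinearMap.pi (fun j : Fin (n + 1) => if (j : ℕ) < i then
        (0 : (Fin (n + 1) → ℂ) →L[ℂ] ℂ) else ContinuousLinearMap.proj j)) ζ := by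
    funext ζ j
    by_cases h : (j : ℕ) < i
    · simp [slice, h]
    · simp [slice, h]
  rw [h1]
  exact analyticAt_const.add (ContinuousLinearMap.analyticAt _ ζ)

theorem analytic_comp_slice (i : ℕ) (P : MvPolynomial (Fin X.N) ℂ) :
    AnalyticOnNhd ℂ (fun ζ => eval (c.ψ (slice c i ζ)) P) (ball (c.T y) c.ε) := by
  intro ζ hζ
  have h1 : AnalyticAt ℂ (fun x : Fin X.N → ℂ => eval x P) (c.ψ (slice c i ζ)) :=
    ContDiffAt.analyticAt (contDiff_eval P).contDiffAt
  have h2 : AnalyticAt ℂ c.ψ (slice c i ζ) := c.an _ (slice_mem c hζ)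
  have h3 : AnalyticAt ℂ (fun ζ => c.ψ (slice c i ζ)) ζ := h2.comp (analyticAt_slice c i ζ)
  exact AnalyticAt.comp (f := fun ζ => c.ψ (slice c i ζ)) h1 h3

/-- The polynomials vanishing on the `i`-th slice. -/
noncomputable def KP (i : ℕ) : Ideal (MvPolynomial (Fin X.N) ℂ) where
  carrier := {P | ∀ᶠ ζ in 𝓝 (c.T y), eval (c.ψ (slice c i ζ)) P = 0}
  add_mem' {a b} ha hb := by
    filter_upwards [ha, hb] with ζ h1 h2
    rw [map_add, h1, h2, add_zero]
  zero_mem' := Eventually.of_forall fun ζ => map_zero _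
  smul_mem' r {a} ha := by
    filter_upwards [ha] with ζ h1
    rw [smul_eq_mul, map_mul, h1, mul_zero]

theorem mem_KP {i : ℕ} {P : MvPolynomial (Fin X.N) ℂ} :
    P ∈ KP c i ↔ ∀ᶠ ζ in 𝓝 (c.T y), eval (c.ψ (slice c i ζ)) P = 0 := Iff.rfl

theorem I_le_KP (i : ℕ) : X.I ≤ KP c i := by
  intro P hP
  rw [mem_KP]
  filter_upwards [ball_mem_nhds (c.T y) c.ε_pos] with ζ hζ
  exact (c.ψ_mem _ (slice_mem c hζ)).1.2 P hP

theorem KP_prime (i : ℕ) : (KP c i).IsPrime := by
  rw [Ideal.isPrime_iff]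
  constructor
  · rw [Ne, Ideal.eq_top_iff_one, mem_KP]
    intro h
    have := h.self_of_nhds
    simp at this
  · intro f g hfg
    by_contra hcon
    push Not at hcon
    obtain ⟨hf, hg⟩ := hcon
    apply hg
    rw [mem_KP] at hf hg hfg ⊢
    obtain ⟨δ, hδ, hball⟩ := Metric.eventually_nhds_iff_ball.1
      (hfg.and (ball_mem_nhds (c.T y) c.ε_pos : ∀ᶠ ζ in 𝓝 (c.T y), ζ ∈ ball (c.T y) c.ε))
    rw [Filter.not_eventually] at hf
    obtain ⟨ζ₁, hζ₁f, hζ₁⟩ := (hf.and_eventually (ball_mem_nhds (c.T y) hδ)).exists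
    have hfan := (analytic_comp_slice c i f) ζ₁ (hball ζ₁ hζ₁).2
    have h1 : ∀ᶠ ζ in 𝓝 ζ₁, eval (c.ψ (slice c i ζ)) f ≠ 0 :=
      hfan.continuousAt.eventually_ne hζ₁f
    have h2 : (fun ζ => eval (c.ψ (slice c i ζ)) g) =ᶠ[𝓝 ζ₁] 0 := by
      filter_upwards [h1, isOpen_ball.mem_nhds hζ₁] with ζ ha hb
      have := (hball ζ hb).1
      rw [map_mul] at this
      exact (mul_eq_zero.1 this).resolve_left ha
    have h3 : AnalyticOnNhd ℂ (fun ζ => eval (c.ψ (slice c i ζ)) g) (ball (c.T y) δ) :=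
      fun ζ hζ => analytic_comp_slice c i g ζ (hball ζ hζ).2
    have h4 := h3.eqOn_zero_of_preconnected_of_eventuallyEq_zero
      (convex_ball _ _).isPreconnected hζ₁ h2
    filter_upwards [ball_mem_nhds (c.T y) hδ] with ζ hζ using h4 hζ

theorem KP_lt {i : ℕ} (hi : i < n + 1) : KP c i < KP c (i + 1) := by
  refine lt_of_le_of_ne ?_ ?_
  · intro P hP
    rw [mem_KP] at hP ⊢
    have h1 : Tendsto (slice c (i + 1)) (𝓝 (c.T y)) (𝓝 (c.T y)) := by
      have := (analyticAt_slice c (i + 1) (c.T y)).continuousAt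
      rwa [ContinuousAt, slice_center] at this
    filter_upwards [h1.eventually hP] with ζ hζ
    have h2 : slice c i (slice c (i + 1) ζ) = slice c (i + 1) ζ := by
      funext j
      by_cases hj : (j : ℕ) < i
      · simp [slice, hj, Nat.lt_succ_of_lt hj]
      · simp [slice, hj]
    rwa [h2] at hζ
  · intro heq
    set k : Fin (n + 1) := ⟨i, hi⟩ with hk
    have h1 : linPoly c.T k - C (c.T y k) ∈ KP c (i + 1) := by
      rw [mem_KP]
      filter_upwards [ball_mem_nhds (c.T y) c.ε_pos] with ζ hζ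
      rw [map_sub, eval_linPoly, eval_C, c.T_ψ _ (slice_mem c hζ)]
      simp [slice, hk]
    rw [← heq, mem_KP] at h1
    have h2 : ∀ᶠ ζ in 𝓝 (c.T y), ζ k = c.T y k := by
      filter_upwards [h1, ball_mem_nhds (c.T y) c.ε_pos] with ζ h hζ
      rw [map_sub, eval_linPoly, eval_C, c.T_ψ _ (slice_mem c hζ), sub_eq_zero] at h
      simpa [slice, hk] using h
    have h3 : Tendsto (fun t : ℂ => c.T y + t • (Pi.single k 1 : Fin (n + 1) → ℂ)) (𝓝[≠] 0)
        (𝓝 (c.T y)) := by
      have h4 : Tendsto (fun t : ℂ => c.T y + t • (Pi.single k 1 : Fin (n + 1) → ℂ)) (𝓝 0)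
          (𝓝 (c.T y + (0 : ℂ) • (Pi.single k 1 : Fin (n + 1) → ℂ))) := by
        apply Continuous.tendsto
        fun_prop
      rw [zero_smul, add_zero] at h4
      exact h4.mono_left nhdsWithin_le_nhds
    obtain ⟨t, ht, ht0⟩ := ((h3.eventually h2).and self_mem_nhdsWithin).exists
    apply ht0
    simpa using ht

theorem KP_last (hy : y ∈ X.U) : KP c (n + 1) = (X.mI y (X.mem_Y hy)).comap
    (Ideal.Quotient.mk X.I) := by
  have h0 : ∀ ζ, slice c (n + 1) ζ = c.T y := by
    intro ζ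
    funext j
    simp [slice, j.2]
  ext P
  rw [mem_KP, Ideal.mem_comap, mem_mI, pt_mk]
  simp only [h0, c.ψ_T y ⟨hy, c.mem⟩]
  simp

end Slice

theorem le_height {y : Fin X.N → ℂ} (hy : y ∈ X.U) :
    ((n + 1 : ℕ) : ℕ∞) ≤ (X.mI y (X.mem_Y hy)).height := by
  obtain ⟨c, -⟩ := exists_chart X hy isOpen_univ (mem_univ _)
  have hsurj : Function.Surjective (Ideal.Quotient.mk X.I) := Ideal.Quotient.mk_surjective
  have hker : ∀ i, RingHom.ker (Ideal.Quotient.mk X.I) ≤ KP c i := by
    intro i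
    rw [Ideal.mk_ker]
    exact I_le_KP c i
  have hprime : ∀ i, ((KP c i).map (Ideal.Quotient.mk X.I)).IsPrime := by
    intro i
    have := KP_prime c i
    exact Ideal.map_isPrime_of_surjective hsurj (hker i)
  have hcomap : ∀ i, ((KP c i).map (Ideal.Quotient.mk X.I)).comap (Ideal.Quotient.mk X.I) =
      KP c i := by
    intro i
    rw [Ideal.comap_map_of_surjective _ hsurj]
    refine sup_eq_left.2 ?_
    exact hker i
  have hlt : ∀ i < n + 1, (KP c i).map (Ideal.Quotient.mk X.I) <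
      (KP c (i + 1)).map (Ideal.Quotient.mk X.I) := by
    intro i hi
    refine lt_of_le_of_ne (Ideal.map_mono (KP_lt c hi).le) fun h => ?_
    have h1 := congrArg (Ideal.comap (Ideal.Quotient.mk X.I)) h
    rw [hcomap, hcomap] at h1
    exact (KP_lt c hi).ne h1
  have hind : ∀ i ≤ n + 1, ((i : ℕ) : ℕ∞) ≤ ((KP c i).map (Ideal.Quotient.mk X.I)).height := by
    intro i
    induction i with
    | zero => intro _; simp
    | succ i ih =>
      intro hi
      have := hprime i
      have := hprime (i + 1)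
      have h1 := Ideal.height_add_one_le_of_lt_of_isPrime (hlt i (by omega))
      have h2 := ih (by omega)
      push_cast
      exact le_trans (add_le_add_left h2 1) h1
  have hlast : (KP c (n + 1)).map (Ideal.Quotient.mk X.I) = X.mI y (X.mem_Y hy) := by
    rw [KP_last c hy, Ideal.map_comap_of_surjective _ hsurj]
  rw [← hlast]
  exact hind (n + 1) le_rfl

/-- The local ring at a point of `U` is regular of dimension `n + 1`. -/
theorem regular {y : Fin X.N → ℂ} (hy : y ∈ X.U) :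
    IsRegularLocalRing (Localization.AtPrime (X.mI y (X.mem_Y hy))) ∧
      ringKrullDim (Localization.AtPrime (X.mI y (X.mem_Y hy))) = (n + 1 : ℕ) := by
  obtain ⟨c, -⟩ := exists_chart X hy isOpen_univ (mem_univ _)
  set p := X.mI y (X.mem_Y hy) with hp
  set B := Localization.AtPrime p
  have : IsNoetherianRing X.R := inferInstance
  have : IsNoetherianRing B := IsLocalization.isNoetherianRing p.primeCompl B inferInstance
  set τ : Fin (n + 1) → X.R := fun i =>
    Ideal.Quotient.mk X.I (linPoly c.T i) - algebraMap ℂ X.R (c.T y i) with hτ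
  have h1 : IsLocalRing.maximalIdeal B ≤
      Ideal.span (Set.range fun i => algebraMap X.R B (τ i)) := by
    have hfg : (IsLocalRing.maximalIdeal B).FG :=
      (isNoetherianRing_iff_ideal_fg B).1 inferInstance _
    refine Submodule.le_of_le_smul_of_le_jacobson_bot (R := B) (M := B) hfg
      (IsLocalRing.maximalIdeal_le_jacobson ⊥) ?_
    rw [← Localization.AtPrime.map_eq_maximalIdeal]
    have h2 := Ideal.map_mono (f := algebraMap X.R B) (X.mI_le hy c)
    rw [Ideal.map_sup, Ideal.map_span, Ideal.map_pow, pow_two] at h2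
    refine h2.trans ?_
    rw [← Set.range_comp]
    exact le_rfl
  have h2 : (IsLocalRing.maximalIdeal B).spanFinrank ≤ n + 1 := by
    have h3 : IsLocalRing.maximalIdeal B =
        Ideal.span (Set.range fun i => algebraMap X.R B (τ i)) := by
      refine le_antisymm h1 (Ideal.span_le.2 ?_)
      rintro _ ⟨i, rfl⟩
      rw [← Localization.AtPrime.map_eq_maximalIdeal]
      refine Ideal.mem_map_of_mem _ ?_
      rw [hp, mem_mI]
      simp only [hτ, map_sub, pt_mk, eval_linPoly, AlgHom.commutes]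
      simp
    rw [h3]
    refine (Submodule.spanFinrank_span_le_ncard_of_finite (Set.finite_range _)).trans ?_
    rw [← Set.image_univ]
    refine (Set.ncard_image_le Set.finite_univ).trans ?_
    simp
  have h3 : ((n + 1 : ℕ) : WithBot ℕ∞) ≤ ringKrullDim B := by
    rw [IsLocalization.AtPrime.ringKrullDim_eq_height p B]
    exact_mod_cast X.le_height hy
  have h4 : IsRegularLocalRing B := by
    refine IsRegularLocalRing.of_spanFinrank_maximalIdeal_le B (le_trans ?_ h3)
    exact_mod_cast h2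
  refine ⟨h4, le_antisymm ?_ h3⟩
  rw [← h4.spanFinrank_maximalIdeal]
  exact_mod_cast h2

end SCone

end Vale.Agent.P271.Br
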