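import Mathlib
import Vale.Agent.P271.H311.Reg
import Vale.Agent.P271.Deg.Quot
import Vale.Agent.P271.Sch.Hub

/-!
# P271, block BRIDGE, part 4: the graded coordinate ring of a smooth prime cone is a `GCone`
-/

open MvPolynomial Set Filter Metric Topology

namespace Vale.Agent.P271.Br

open Vale.Agent.P271.Cone Vale.Agent.P271.Deg

variable {n : ℕ}

attribute [local instance] MvPolynomial.weightedGradedAlgebra

theorem SCone.isHomogeneous (X : SCone n) :
    X.I.IsHomogeneous (weightedHomogeneousSubmodule ℂ X.w) := by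
  intro d P hP
  have h1 := X.homog P hP d
  have h2 := weightedDecomposition.decompose'_apply ℂ X.w P d
  rw [← h2] at h1
  exact h1

/-- A common divisor of the weights of the nonzero coordinates of a point of `U` is a unit. -/
theorem SCone.exists_bezout (X : SCone n) {y : Fin X.N → ℂ} (hy : y ∈ X.U) :
    ∃ c : {i : Fin X.N // y i ≠ 0} → ℤ, ∑ i, c i * (X.w i : ℤ) = 1 := by
  set J : Ideal ℤ := Ideal.span (Set.range fun i : {i : Fin X.N // y i ≠ 0} => (X.w i : ℤ)) with hJ
  obtain ⟨g, hg⟩ := (inferInstance : J.IsPrincipal)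
  have hdvd : ∀ i : {i : Fin X.N // y i ≠ 0}, g ∣ (X.w i : ℤ) := by
    intro i
    have h1 : (X.w i : ℤ) ∈ J := Ideal.subset_span ⟨i, rfl⟩
    rw [hg] at h1
    exact Ideal.mem_span_singleton.1 h1
  -- a nonzero coordinate
  obtain ⟨i₀, hi₀⟩ : ∃ i, y i ≠ 0 := by
    by_contra h
    push Not at h
    exact hy.1 (funext h)
  have hg0 : g ≠ 0 := by
    intro h
    have := hdvd ⟨i₀, hi₀⟩
    rw [h, zero_dvd_iff] at this
    have h2 := X.w_pos i₀
    simp only [Nat.cast_eq_zero] at this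
    omega
  set m := g.natAbs with hm
  have hm0 : m ≠ 0 := Int.natAbs_ne_zero.2 hg0
  have hmdvd : ∀ i, y i ≠ 0 → m ∣ X.w i := by
    intro i hi
    have := hdvd ⟨i, hi⟩
    rw [← Int.natAbs_dvd_natAbs] at this
    simpa using this
  set t : ℂ := Complex.exp (2 * Real.pi * Complex.I / m) with ht
  have hprim : IsPrimitiveRoot t m := Complex.isPrimitiveRoot_exp m hm0
  have hact : act X.w t y = y := by
    funext i
    by_cases hi : y i = 0
    · simp [act, hi]
    · obtain ⟨q, hq⟩ := hmdvd i hi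
      simp only [act]
      rw [hq, pow_mul, hprim.pow_eq_one, one_pow, one_mul]
  have ht1 : t = 1 := X.free y hy.1 hy.2 t (Complex.exp_ne_zero _) hact
  have hm1 : m = 1 := by
    have := hprim.eq_orderOf
    rw [ht1, orderOf_one] at this
    exact this
  have h1 : (1 : ℤ) ∈ J := by
    rw [hg]
    refine Ideal.mem_span_singleton.2 ?_
    rw [← Int.natAbs_dvd_natAbs]
    simp [← hm, hm1]
  rw [hJ] at h1
  obtain ⟨c, hc⟩ := (Submodule.mem_span_range_iff_exists_fun ℤ).1 h1
  exact ⟨c, by simpa using hc⟩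

/-- `𝒪(1)` is invertible at every point of `U`. -/
theorem SCone.exists_consecutive (X : SCone n) {y : Fin X.N → ℂ} (hy : y ∈ X.U) :
    ∃ (k : ℕ) (P Q : MvPolynomial (Fin X.N) ℂ), IsWeightedHomogeneous X.w P k ∧
      IsWeightedHomogeneous X.w Q (k + 1) ∧ eval y P ≠ 0 ∧ eval y Q ≠ 0 := by
  obtain ⟨c, hc⟩ := X.exists_bezout hy
  have hhom : ∀ e : {i : Fin X.N // y i ≠ 0} → ℕ,
      IsWeightedHomogeneous X.w (∏ i, (MvPolynomial.X i.1 : MvPolynomial (Fin X.N) ℂ) ^ e i)
        (∑ i, e i * X.w i) := by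
    intro e
    refine IsWeightedHomogeneous.prod _ _ _ fun i _ => ?_
    have := (isWeightedHomogeneous_X ℂ X.w i.1).pow (e i)
    simpa using this
  have hne : ∀ e : {i : Fin X.N // y i ≠ 0} → ℕ,
      eval y (∏ i, (MvPolynomial.X i.1 : MvPolynomial (Fin X.N) ℂ) ^ e i) ≠ 0 := by
    intro e
    rw [map_prod]
    refine Finset.prod_ne_zero_iff.2 fun i _ => ?_
    rw [map_pow, eval_X]
    exact pow_ne_zero _ i.2
  refine ⟨∑ i, (-c i).toNat * X.w i, _, _, hhom (fun i => (-c i).toNat), ?_, hne _,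
    hne (fun i => (c i).toNat)⟩
  · have h1 : ∑ i, (-c i).toNat * X.w i + 1 = ∑ i, (c i).toNat * X.w i := by
      have h2 : ∀ i, c i = ((c i).toNat : ℤ) - ((-c i).toNat : ℤ) := fun i =>
        (Int.toNat_sub_toNat_neg (c i)).symm
      have h3 : ∑ i, (((c i).toNat : ℤ) - ((-c i).toNat : ℤ)) * (X.w i : ℤ) = 1 := by
        rw [← hc]
        exact Finset.sum_congr rfl fun i _ => by rw [← h2 i]
      simp only [sub_mul, Finset.sum_sub_distrib] at h3
      zify
      linarith
    rw [h1]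
    exact hhom (fun i => (c i).toNat)

theorem eval_zero_of_isWeightedHomogeneous {N : ℕ} {w : Fin N → ℕ} (hw : ∀ i, 0 < w i)
    {P : MvPolynomial (Fin N) ℂ} {k : ℕ} (hk : 0 < k) (hP : IsWeightedHomogeneous w P k) :
    eval 0 P = 0 := by
  have := eval_act hP 0 0
  rw [act_zero hw, zero_pow hk.ne', zero_mul] at this
  exact this

theorem isWeightedHomogeneous_zero_eq_C {N : ℕ} {w : Fin N → ℕ} (hw : ∀ i, 0 < w i)
    {P : MvPolynomial (Fin N) ℂ} (hP : IsWeightedHomogeneous w P 0) :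
    P = C (P.coeff 0) := by
  ext d
  rw [coeff_C]
  split_ifs with h
  · rw [← h]
  · by_contra hd
    have h1 := hP hd
    rw [Finsupp.weight_apply, Finsupp.sum_fintype _ _ (by simp)] at h1
    apply h
    ext i
    have h2 := (Finset.sum_eq_zero_iff_of_nonneg (fun i _ => Nat.zero_le _)).1 h1 i
      (Finset.mem_univ i)
    simp only [smul_eq_mul, mul_eq_zero] at h2
    rcases h2 with h2 | h2
    · simp [h2]
    · exact absurd h2 (hw i).ne'

/-- The maximal ideals different from the vertex are the points of `U`. -/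
theorem SCone.exists_point (X : SCone n) (p : Ideal X.R) [hp : p.IsMaximal]
    (hnv : ∃ k > 0, ∃ s ∈ qg (weightedHomogeneousSubmodule ℂ X.w) X.I k, s ∉ p) :
    ∃ (y : Fin X.N → ℂ) (hy : y ∈ X.U), p = X.mI y (X.mem_Y hy) := by
  have hsurj : Function.Surjective (Ideal.Quotient.mk X.I) := Ideal.Quotient.mk_surjective
  have hmax : (p.comap (Ideal.Quotient.mk X.I)).IsMaximal :=
    Ideal.comap_isMaximal_of_surjective _ hsurj
  obtain ⟨y, hy⟩ := isMaximal_iff_eq_vanishingIdeal_singleton.1 hmax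
  have hmem : ∀ P, Ideal.Quotient.mk X.I P ∈ p ↔ eval y P = 0 := by
    intro P
    rw [← Ideal.mem_comap, hy, mem_vanishingIdeal_iff]
    simp
  have hyY : y ∈ X.Y := by
    intro P hP
    rw [← hmem, Ideal.Quotient.eq_zero_iff_mem.2 hP]
    exact zero_mem _
  have hy0 : y ≠ 0 := by
    rintro rfl
    obtain ⟨k, hk, s, ⟨P, hP, rfl⟩, hs⟩ := hnv
    apply hs
    exact (hmem P).2 (eval_zero_of_isWeightedHomogeneous X.w_pos hk hP)
  refine ⟨y, ⟨hy0, hyY⟩, ?_⟩
  ext a
  obtain ⟨P, rfl⟩ := hsurj a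
  rw [hmem, SCone.mem_mI, SCone.pt_mk]

/-- The graded coordinate ring of a smooth prime cone. -/
noncomputable def toGCone (X : PCone n) : Sch.GCone n where
  R := X.toSCone.R
  dom := Ideal.Quotient.isDomain X.I
  A := qg (weightedHomogeneousSubmodule ℂ X.w) X.I
  gr := qgGraded X.toSCone.isHomogeneous
  finiteType := inferInstance
  zero := by
    rintro a ⟨P, hP, rfl⟩
    refine ⟨P.coeff 0, ?_⟩
    have h1 := isWeightedHomogeneous_zero_eq_C X.w_pos hP
    conv_rhs => rw [h1]
    rfl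
  regular := by
    intro p hp hnv
    obtain ⟨y, hy, rfl⟩ := X.toSCone.exists_point p hnv
    exact X.toSCone.regular hy
  free := by
    intro p hp hnv
    obtain ⟨y, hy, rfl⟩ := X.toSCone.exists_point p hnv
    obtain ⟨k, P, Q, hP, hQ, hPy, hQy⟩ := X.toSCone.exists_consecutive hy
    refine ⟨k, Ideal.Quotient.mk X.I P, mk_mem_qg hP, Ideal.Quotient.mk X.I Q, mk_mem_qg hQ,
      ?_, ?_⟩
    · rw [SCone.mem_mI, SCone.pt_mk]
      exact hPy
    · rw [SCone.mem_mI, SCone.pt_mk]
      exact hQy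

end Vale.Agent.P271.Br
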