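import Mathlib
import Vale.Agent.P271.H311.ToGCone
import Vale.Agent.P271.H112.Dens

/-!
# P271, block BRIDGE, part 5: rational vector fields dual to the chart coordinates
-/

open MvPolynomial Set Filter Metric Topology

namespace Vale.Agent.P271.Br

open Vale.Agent.P271.Cone Vale.Agent.P271.Deg

variable {n : ℕ}

/-! ### Polynomial vector fields -/

theorem eval_mkDerivation {N : ℕ} (Q : Fin N → MvPolynomial (Fin N) ℂ)
    (P : MvPolynomial (Fin N) ℂ) (x : Fin N → ℂ) :
    eval x (mkDerivation ℂ Q P) = dpoly P x (fun k => eval x (Q k)) := by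
  induction P using MvPolynomial.induction_on with
  | C a => simp [dpoly_C]
  | add p q hp hq => rw [map_add, map_add, hp, hq, dpoly_add]
  | mul_X p k hp =>
    rw [Derivation.leibniz, mkDerivation_X, dpoly_mul_X, map_add, smul_eq_mul, smul_eq_mul,
      map_mul, map_mul, eval_X, hp]

/-- The equations which, together with the linear coordinates, determine a vector. -/
noncomputable def sysMat {N r : ℕ} (e : Fin N ≃ Fin r ⊕ Fin (n + 1))
    (P : Fin r → MvPolynomial (Fin N) ℂ)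
    (T : (Fin N → ℂ) →L[ℂ] (Fin (n + 1) → ℂ)) :
    Matrix (Fin N) (Fin N) (MvPolynomial (Fin N) ℂ) :=
  Matrix.of fun a k => Sum.elim (fun j => pderiv k (P j)) (fun i => C (T (Pi.single k 1) i)) (e a)

theorem T_eq_sum {N : ℕ} (T : (Fin N → ℂ) →L[ℂ] (Fin (n + 1) → ℂ)) (v : Fin N → ℂ)
    (i : Fin (n + 1)) : T v i = ∑ k, T (Pi.single k 1) i * v k := by
  rw [← eval_linPoly T i v]
  simp [linPoly]

theorem sysMat_mulVec {N r : ℕ} (e : Fin N ≃ Fin r ⊕ Fin (n + 1))
    (P : Fin r → MvPolynomial (Fin N) ℂ)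
    (T : (Fin N → ℂ) →L[ℂ] (Fin (n + 1) → ℂ)) (x v : Fin N → ℂ) (a : Fin N) :
    (((sysMat e P T).map (eval x)).mulVec v) a =
      Sum.elim (fun j => dpoly (P j) x v) (fun i => T v i) (e a) := by
  simp only [Matrix.mulVec, dotProduct, sysMat, Matrix.map_apply, Matrix.of_apply]
  rcases e a with j | i
  · simp [dpoly]
  · simp [T_eq_sum T v i]

theorem finrank_ker_of_surjective {N r : ℕ} (hr : r + (n + 1) = N)
    (A : (Fin N → ℂ) →L[ℂ] (Fin r → ℂ)) (hA : Function.Surjective A) :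
    Module.finrank ℂ (LinearMap.ker A.toLinearMap) = n + 1 := by
  have h1 := LinearMap.finrank_range_add_finrank_ker A.toLinearMap
  have h2 : Module.finrank ℂ (LinearMap.range A.toLinearMap) = r := by
    rw [LinearMap.range_eq_top.2 hA]
    simp
  rw [h2] at h1
  simp at h1
  omega

theorem exists_sys (X : SCone n) {y : Fin X.N → ℂ} (hy : y ∈ X.U) (c : Chart X y) :
    ∃ (r : ℕ) (e : Fin X.N ≃ Fin r ⊕ Fin (n + 1)) (P : Fin r → MvPolynomial (Fin X.N) ℂ),
      (∀ j, P j ∈ X.I) ∧ eval y (sysMat e P c.T).det ≠ 0 := by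
  obtain ⟨r, P, hr, hvan, hli, -⟩ := X.smooth y hy.1 hy.2
  refine ⟨r, (finCongr hr.symm).trans finSumFinEquiv.symm, P, hvan, ?_⟩
  set e : Fin X.N ≃ Fin r ⊕ Fin (n + 1) := (finCongr hr.symm).trans finSumFinEquiv.symm with he
  rw [RingHom.map_det]
  intro h0
  obtain ⟨v, hv0, hv⟩ := Matrix.exists_mulVec_eq_zero_iff.2 h0
  have hv' : ∀ a, Sum.elim (fun j => dpoly (P j) y v) (fun i => c.T v i) (e a) = 0 := by
    intro a
    rw [← sysMat_mulVec e P c.T y v a]
    have := congrFun hv a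
    simpa using this
  have h1 : ∀ j, dpoly (P j) y v = 0 := by
    intro j
    have := hv' (e.symm (Sum.inl j))
    simpa using this
  have h2 : c.T v = 0 := by
    funext i
    have := hv' (e.symm (Sum.inr i))
    simpa using this
  set A : (Fin X.N → ℂ) →L[ℂ] (Fin r → ℂ) := ContinuousLinearMap.pi (fun j => dL (P j) y) with hA
  have hsurj := surjective_of_li P y hli
  have hle : X.tangent y ≤ LinearMap.ker A.toLinearMap := by
    intro w hw
    rw [LinearMap.mem_ker]
    funext j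
    have := hw (P j) (hvan j)
    rw [← dL_apply] at this
    simpa [hA] using this
  have heq : X.tangent y = LinearMap.ker A.toLinearMap := by
    apply Submodule.eq_of_le_of_finrank_eq hle
    rw [finrank_tangent X hy, finrank_ker_of_surjective hr A hsurj]
  have h3 : v ∈ X.tangent y := by
    rw [heq, LinearMap.mem_ker]
    funext j
    have := h1 j
    rw [← dL_apply] at this
    simpa [hA] using this
  exact hv0 (c.T_inj ⟨hy, c.mem⟩ h3 h2)

/-- The polynomial vector fields `Δ ∂/∂T_i`. -/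
noncomputable def vf {N r : ℕ} (e : Fin N ≃ Fin r ⊕ Fin (n + 1))
    (P : Fin r → MvPolynomial (Fin N) ℂ) (T : (Fin N → ℂ) →L[ℂ] (Fin (n + 1) → ℂ))
    (i : Fin (n + 1)) (k : Fin N) : MvPolynomial (Fin N) ℂ :=
  (sysMat e P T).adjugate k (e.symm (Sum.inr i))

theorem sum_adjugate {N r : ℕ} (e : Fin N ≃ Fin r ⊕ Fin (n + 1))
    (P : Fin r → MvPolynomial (Fin N) ℂ) (T : (Fin N → ℂ) →L[ℂ] (Fin (n + 1) → ℂ))
    {x v : Fin N → ℂ} {i : Fin (n + 1)} (h1 : ∀ j, dpoly (P j) x v = 0)
    (h2 : T v = Pi.single i 1) (k : Fin N) :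
    eval x (vf e P T i k) = eval x (sysMat e P T).det * v k := by
  have h3 : ((sysMat e P T).map (eval x)).mulVec v = Pi.single (e.symm (Sum.inr i)) 1 := by
    funext a
    rw [sysMat_mulVec, h2]
    rcases h : e a with j | i'
    · have ha : a ≠ e.symm (Sum.inr i) := by
        rintro rfl
        simp at h
      simp [h1 j, Pi.single_apply, ha]
    · have ha : a = e.symm (Sum.inr i') := by rw [← h]; simp
      subst ha
      simp [Pi.single_apply]
  have h4 : (sysMat e P T).adjugate.map (eval x) = ((sysMat e P T).map (eval x)).adjugate :=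
    RingHom.map_adjugate (eval x) (sysMat e P T)
  have h5 : eval x (sysMat e P T).det = ((sysMat e P T).map (eval x)).det :=
    RingHom.map_det (eval x) (sysMat e P T)
  have h6 : ((sysMat e P T).map (eval x)).adjugate.mulVec
      (((sysMat e P T).map (eval x)).mulVec v) = ((sysMat e P T).map (eval x)).det • v := by
    rw [Matrix.mulVec_mulVec, Matrix.adjugate_mul, Matrix.smul_mulVec, Matrix.one_mulVec]
  rw [h3] at h6
  have h7 := congrFun h6 k
  rw [← h5, Pi.smul_apply, smul_eq_mul] at h7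
  rw [← h7, ← h4]
  simp [vf]

theorem eval_vf (X : SCone n) {y : Fin X.N → ℂ} (c : Chart X y) {r : ℕ}
    (e : Fin X.N ≃ Fin r ⊕ Fin (n + 1)) {P : Fin r → MvPolynomial (Fin X.N) ℂ}
    (hP : ∀ j, P j ∈ X.I) {x : Fin X.N → ℂ} (hx : x ∈ X.U ∩ c.V) (i : Fin (n + 1)) (k : Fin X.N) :
    eval x (vf e P c.T i k) =
      eval x (sysMat e P c.T).det * fderiv ℂ c.ψ (c.T x) (Pi.single i 1) k := by
  have h1 := c.fderiv_mem_tangent (c.T_mem x hx) (Pi.single i 1)
  rw [c.ψ_T x hx] at h1
  exact sum_adjugate e P c.T (fun j => h1 (P j) (hP j)) (c.T_fderiv (c.T_mem x hx) _) k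

/-- A polynomial vanishing on `U` near a point of `U` is in the ideal. -/
theorem PCone.mem_I_of_open (X : PCone n) {y : Fin X.N → ℂ} (hy : y ∈ X.U)
    {V : Set (Fin X.N → ℂ)} (hV : IsOpen V) (hyV : y ∈ V) {P : MvPolynomial (Fin X.N) ℂ}
    (h : ∀ x ∈ X.U ∩ V, eval x P = 0) : P ∈ X.I := by
  by_contra hP
  have h1 := H112.dens X.I hP (fun g hg => hy.2 g hg)
  obtain ⟨w, ⟨hwV, hw0⟩, hwY, hwP⟩ := _root_.mem_closure_iff.1 h1 (V ∩ {x | x ≠ 0})
    (hV.inter isOpen_ne) ⟨hyV, hy.1⟩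
  exact hwP (h w ⟨⟨hw0, hwY⟩, hwV⟩)

/-- Points of `U` where a given function does not vanish are dense in `U`. -/
theorem PCone.mem_closure (X : PCone n) {y : Fin X.N → ℂ} (hy : y ∈ X.U)
    {P : MvPolynomial (Fin X.N) ℂ} (hP : P ∉ X.I) :
    y ∈ closure {x | x ∈ X.U ∧ eval x P ≠ 0} := by
  have h1 := H112.dens X.I hP (fun g hg => hy.2 g hg)
  rw [_root_.mem_closure_iff]
  intro O hO hyO
  obtain ⟨w, ⟨hwV, hw0⟩, hwY, hwP⟩ := _root_.mem_closure_iff.1 h1 (O ∩ {x | x ≠ 0})
    (hO.inter isOpen_ne) ⟨hyO, hy.1⟩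
  exact ⟨w, hwV, ⟨hw0, hwY⟩, hwP⟩

/-! ### The derivations of the function field -/

section Der

variable (X : PCone n)

instance : IsDomain X.toSCone.R := Ideal.Quotient.isDomain X.I

/-- The function field of the cone. -/
abbrev PCone.K : Type := FractionRing X.toSCone.R

/-- A polynomial as an element of the function field. -/
noncomputable def PCone.iq : MvPolynomial (Fin X.N) ℂ →+* X.K :=
  (algebraMap X.toSCone.R X.K).comp (Ideal.Quotient.mk X.I)

theorem PCone.iq_eq_zero {P : MvPolynomial (Fin X.N) ℂ} : X.iq P = 0 ↔ P ∈ X.I := by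
  rw [PCone.iq, RingHom.comp_apply, FaithfulSMul.algebraMap_eq_zero_iff,
    Ideal.Quotient.eq_zero_iff_mem]

theorem PCone.iq_ne_zero_of_eval {y : Fin X.N → ℂ} (hy : y ∈ X.Y) {P : MvPolynomial (Fin X.N) ℂ}
    (h : eval y P ≠ 0) : X.iq P ≠ 0 := by
  rw [Ne, PCone.iq_eq_zero]
  exact fun hP => h (hy P hP)

theorem PCone.iq_inj {P Q : MvPolynomial (Fin X.N) ℂ} (h : X.iq P = X.iq Q) {x : Fin X.N → ℂ}
    (hx : x ∈ X.Y) : eval x P = eval x Q := by
  have h1 : X.iq (P - Q) = 0 := by rw [map_sub, h, sub_self]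
  have h2 := hx _ (X.iq_eq_zero.1 h1)
  rw [map_sub, sub_eq_zero] at h2
  exact h2

theorem exists_ext_der {R K : Type} [CommRing R] [Algebra ℂ R]
    [Field K] [Algebra ℂ K] [Algebra R K] [IsScalarTower ℂ R K] [IsFractionRing R K]
    (D : Derivation ℂ R R) : ∃ D' : Derivation ℂ K K,
    ∀ f : R, D' (algebraMap R K f) = algebraMap R K (D f) := by
  have _ : Algebra.FormallyEtale R K :=
    Algebra.FormallyEtale.of_isLocalization (Rₘ := K) (nonZeroDivisors R)
  let g : (Ω[R⁄ℂ]) →ₗ[R] K := (Algebra.linearMap R K) ∘ₗ D.liftKaehlerDifferential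
  let ℓ : TensorProduct R K (Ω[R⁄ℂ]) →ₗ[K] K := LinearMap.liftBaseChange K g
  let e := KaehlerDifferential.tensorKaehlerEquivOfFormallyEtale ℂ R K
  refine ⟨KaehlerDifferential.linearMapEquivDerivation ℂ K (M := K) (ℓ ∘ₗ e.symm.toLinearMap),
    fun a => ?_⟩
  have h1 : KaehlerDifferential.linearMapEquivDerivation ℂ K (M := K)
      (ℓ ∘ₗ e.symm.toLinearMap) (algebraMap R K a) =
      ℓ (e.symm (KaehlerDifferential.D ℂ K (algebraMap R K a))) := rfl
  rw [h1, KaehlerDifferential.tensorKaehlerEquivOfFormallyEtale_symm_D_algebraMap,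
    LinearMap.liftBaseChange_tmul, one_smul]
  change algebraMap R K (D.liftKaehlerDifferential (KaehlerDifferential.D ℂ R a)) = _
  rw [Derivation.liftKaehlerDifferential_comp_D]

/-- A polynomial vector field tangent to the cone induces a derivation of the function field. -/
theorem PCone.exists_der (Q : Fin X.N → MvPolynomial (Fin X.N) ℂ)
    (hQ : ∀ P ∈ X.I, mkDerivation ℂ Q P ∈ X.I) :
    ∃ D : Derivation ℂ X.K X.K, ∀ P, D (X.iq P) = X.iq (mkDerivation ℂ Q P) := by
  have hsurj : Function.Surjective (Ideal.Quotient.mkₐ ℂ X.I) := Ideal.Quotient.mk_surjective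
  have hd : ∀ P, Ideal.Quotient.mkₐ ℂ X.I P = 0 →
      Ideal.Quotient.mkₐ ℂ X.I (mkDerivation ℂ Q P) = 0 := by
    intro P hP
    exact Ideal.Quotient.eq_zero_iff_mem.2 (hQ P (Ideal.Quotient.eq_zero_iff_mem.1 hP))
  obtain ⟨D, hD⟩ := exists_ext_der (K := X.K) (Derivation.liftOfSurjective hsurj hd)
  refine ⟨D, fun P => ?_⟩
  have h1 := hD (Ideal.Quotient.mkₐ ℂ X.I P)
  rw [Derivation.liftOfSurjective_apply] at h1
  exact h1

/-- A derivation of the function field is determined by the coordinates. -/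
theorem PCone.der_eq_zero {D : Derivation ℂ X.K X.K} (h : ∀ k, D (X.iq (MvPolynomial.X k)) = 0) :
    D = 0 := by
  have h1 : ∀ P, D (X.iq P) = 0 := by
    intro P
    induction P using MvPolynomial.induction_on with
    | C a =>
      have : X.iq (C a) = algebraMap ℂ X.K a := rfl
      rw [this, D.map_algebraMap]
    | add p q hp hq => rw [map_add, map_add, hp, hq, add_zero]
    | mul_X p k hp => rw [map_mul, D.leibniz, hp, h, smul_zero, smul_zero, add_zero]
  ext f
  obtain ⟨a, b, hb, rfl⟩ := IsFractionRing.div_surjective (A := X.toSCone.R) f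
  obtain ⟨P, rfl⟩ := Ideal.Quotient.mk_surjective a
  obtain ⟨Q, rfl⟩ := Ideal.Quotient.mk_surjective b
  have h2 : D (X.iq P) = 0 := h1 P
  have h3 : D (X.iq Q) = 0 := h1 Q
  have hQ0 : X.iq Q ≠ 0 := by
    have := nonZeroDivisors.ne_zero hb
    rw [Ne, PCone.iq, RingHom.comp_apply, FaithfulSMul.algebraMap_eq_zero_iff]
    exact this
  show D (X.iq P / X.iq Q) = 0
  have h4 : X.iq P = (X.iq P / X.iq Q) * X.iq Q := by field_simp
  have h5 : D (X.iq P) = (X.iq P / X.iq Q) • D (X.iq Q) + X.iq Q • D (X.iq P / X.iq Q) := by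
    conv_lhs => rw [h4]
    rw [D.leibniz]
  rw [h2, h3, smul_zero, zero_add, smul_eq_mul] at h5
  exact (mul_eq_zero.1 h5.symm).resolve_left hQ0

end Der

end Vale.Agent.P271.Br
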