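import Mathlib
import Vale.Agent.P271.H311.Cramer

/-!
# P271, block BRIDGE, part 6: the rational frame dual to the chart coordinates, regular functions
-/

open MvPolynomial Set Filter Metric Topology

namespace Vale.Agent.P271.Br

open Vale.Agent.P271.Cone Vale.Agent.P271.Deg

variable {n : ℕ}

section

variable (X : PCone n)

theorem PCone.der_chain (D : Derivation ℂ X.K X.K) (P : MvPolynomial (Fin X.N) ℂ) :
    D (X.iq P) = ∑ k, X.iq (pderiv k P) * D (X.iq (MvPolynomial.X k)) := by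
  induction P using MvPolynomial.induction_on with
  | C a =>
    have : X.iq (C a) = algebraMap ℂ X.K a := rfl
    rw [this, D.map_algebraMap]
    simp
  | add p q hp hq =>
    rw [map_add, map_add, hp, hq, ← Finset.sum_add_distrib]
    refine Finset.sum_congr rfl fun k _ => ?_
    rw [map_add, map_add, add_mul]
  | mul_X p k hp =>
    rw [map_mul, D.leibniz, hp, smul_eq_mul, smul_eq_mul, Finset.mul_sum]
    have h1 : ∀ j, X.iq (pderiv j (p * MvPolynomial.X k)) * D (X.iq (MvPolynomial.X j)) =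
        (if j = k then X.iq p * D (X.iq (MvPolynomial.X k)) else 0) +
          X.iq (MvPolynomial.X k) * (X.iq (pderiv j p) * D (X.iq (MvPolynomial.X j))) := by
      intro j
      rw [Derivation.leibniz, pderiv_X, smul_eq_mul, smul_eq_mul, map_add, map_mul, map_mul]
      by_cases h : j = k
      · subst h
        simp
        ring
      · simp [h, Pi.single_apply, Ne.symm h]
        ring
    simp only [h1, Finset.sum_add_distrib]
    simp

/-- The regular functions at `y`. -/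
def PCone.reg (y : Fin X.N → ℂ) : Subring X.K where
  carrier := {f | ∃ A B : MvPolynomial (Fin X.N) ℂ, eval y B ≠ 0 ∧ f * X.iq B = X.iq A}
  mul_mem' := by
    rintro f g ⟨A, B, hB, h⟩ ⟨A', B', hB', h'⟩
    refine ⟨A * A', B * B', by rw [map_mul]; exact mul_ne_zero hB hB', ?_⟩
    rw [map_mul, map_mul, ← h, ← h']
    ring
  one_mem' := ⟨1, 1, by simp, by simp⟩
  add_mem' := by
    rintro f g ⟨A, B, hB, h⟩ ⟨A', B', hB', h'⟩
    refine ⟨A * B' + A' * B, B * B', by rw [map_mul]; exact mul_ne_zero hB hB', ?_⟩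
    rw [map_mul, map_add, map_mul, map_mul, ← h, ← h']
    ring
  zero_mem' := ⟨0, 1, by simp, by simp⟩
  neg_mem' := by
    rintro f ⟨A, B, hB, h⟩
    refine ⟨-A, B, hB, ?_⟩
    rw [map_neg, ← h]
    ring

theorem PCone.mem_reg {y : Fin X.N → ℂ} {f : X.K} : f ∈ X.reg y ↔
    ∃ A B : MvPolynomial (Fin X.N) ℂ, eval y B ≠ 0 ∧ f * X.iq B = X.iq A := Iff.rfl

theorem PCone.iq_mem_reg (y : Fin X.N → ℂ) (P : MvPolynomial (Fin X.N) ℂ) : X.iq P ∈ X.reg y :=
  ⟨P, 1, by simp, by simp⟩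

theorem PCone.mem_reg_of_mul {y : Fin X.N → ℂ} {f : X.K} {B : MvPolynomial (Fin X.N) ℂ}
    (hB : eval y B ≠ 0) (h : f * X.iq B ∈ X.reg y) : f ∈ X.reg y := by
  obtain ⟨A', B', hB', h'⟩ := h
  refine ⟨A', B * B', by rw [map_mul]; exact mul_ne_zero hB hB', ?_⟩
  rw [← h', map_mul]
  ring

theorem PCone.regAt_iff {y : Fin X.N → ℂ} (hy : y ∈ X.Y) {f : X.K} :
    Sch.GCone.RegAt (C := toGCone X) (X.toSCone.pt y hy) f ↔ f ∈ X.reg y := by
  constructor
  · rintro ⟨a, b, hb, h⟩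
    obtain ⟨A, rfl⟩ := Ideal.Quotient.mk_surjective a
    obtain ⟨B, rfl⟩ := Ideal.Quotient.mk_surjective b
    refine ⟨A, B, ?_, h⟩
    have h1 := SCone.pt_mk X.toSCone hy B
    rw [← h1]
    exact hb
  · rintro ⟨A, B, hB, h⟩
    refine ⟨Ideal.Quotient.mk _ A, Ideal.Quotient.mk _ B, ?_, h⟩
    have h1 := SCone.pt_mk X.toSCone hy B
    rw [← h1] at hB
    exact hB

/-- The rational frame dual to the coordinates of a chart. -/
structure Frame (X : PCone n) (y : Fin X.N → ℂ) (c : Chart X.toSCone y) where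
  /-- common denominator -/
  Δ : MvPolynomial (Fin X.N) ℂ
  /-- components -/
  Q : Fin (n + 1) → Fin X.N → MvPolynomial (Fin X.N) ℂ
  /-- the derivations -/
  D : Fin (n + 1) → Derivation ℂ X.K X.K
  Δ_ne : eval y Δ ≠ 0
  Q_eq : ∀ x ∈ X.U ∩ c.V, ∀ i k,
    eval x (Q i k) = eval x Δ * fderiv ℂ c.ψ (c.T x) (Pi.single i 1) k
  D_eq : ∀ i P, D i (X.iq P) * X.iq Δ = X.iq (mkDerivation ℂ (Q i) P)
  D_T : ∀ i k, D i (X.iq (linPoly c.T k)) = if i = k then 1 else 0
  D_gen : ∀ D' : Derivation ℂ X.K X.K, D' = ∑ i, D' (X.iq (linPoly c.T i)) • D i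

theorem exists_frame {y : Fin X.N → ℂ} (hy : y ∈ X.U) (c : Chart X.toSCone y) :
    Nonempty (Frame X y c) := by
  obtain ⟨r, e, P, hP, hdet⟩ := exists_sys X.toSCone hy c
  set Δ : MvPolynomial (Fin X.N) ℂ := (sysMat e P c.T).det with hΔ
  set Q : Fin (n + 1) → Fin X.N → MvPolynomial (Fin X.N) ℂ := fun i k => vf e P c.T i k with hQ
  have hQeq : ∀ x ∈ X.U ∩ c.V, ∀ i k,
      eval x (Q i k) = eval x Δ * fderiv ℂ c.ψ (c.T x) (Pi.single i 1) k := fun x hx i k =>
    eval_vf X.toSCone c e hP hx i k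
  have hQfun : ∀ x ∈ X.U ∩ c.V, ∀ i,
      (fun k => eval x (Q i k)) = eval x Δ • fderiv ℂ c.ψ (c.T x) (Pi.single i 1) := by
    intro x hx i
    funext k
    rw [hQeq x hx i k]
    rfl
  have htan : ∀ i, ∀ F ∈ X.I, mkDerivation ℂ (Q i) F ∈ X.I := by
    intro i F hF
    refine X.mem_I_of_open hy c.isOpen c.mem fun x hx => ?_
    rw [eval_mkDerivation, hQfun x hx i, ← dL_apply, map_smul, dL_apply]
    have h1 := c.fderiv_mem_tangent (c.T_mem x hx) (Pi.single i 1)
    rw [c.ψ_T x hx] at h1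
    rw [h1 F hF, smul_zero]
  have h1 : ∀ i, ∃ D : Derivation ℂ X.K X.K, ∀ F, D (X.iq F) = X.iq (mkDerivation ℂ (Q i) F) :=
    fun i => X.exists_der (Q i) (htan i)
  choose D0 hD0 using h1
  have hΔ0 : X.iq Δ ≠ 0 := X.iq_ne_zero_of_eval hy.2 hdet
  have hDeq : ∀ i F, ((X.iq Δ)⁻¹ • D0 i) (X.iq F) * X.iq Δ = X.iq (mkDerivation ℂ (Q i) F) := by
    intro i F
    rw [Derivation.smul_apply, smul_eq_mul, hD0]
    field_simp
  have hDT : ∀ i k, ((X.iq Δ)⁻¹ • D0 i) (X.iq (linPoly c.T k)) = if i = k then 1 else 0 := by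
    intro i k
    have h2 : mkDerivation ℂ (Q i) (linPoly c.T k) - (if i = k then Δ else 0) ∈ X.I := by
      refine X.mem_I_of_open hy c.isOpen c.mem fun x hx => ?_
      rw [map_sub, eval_mkDerivation, hQfun x hx i, ← dL_apply, map_smul, dL_apply,
        dpoly_linPoly, c.T_fderiv (c.T_mem x hx)]
      by_cases h : i = k
      · subst h
        simp
      · simp [h, Pi.single_apply, Ne.symm h]
    have h3 := X.iq_eq_zero.2 h2
    rw [map_sub, sub_eq_zero] at h3
    have h4 := hDeq i (linPoly c.T k)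
    rw [h3] at h4
    by_cases h : i = k
    · subst h
      simp only [if_true] at h4 ⊢
      exact mul_right_cancel₀ hΔ0 (by rw [h4, one_mul])
    · simp only [h, if_false, map_zero] at h4 ⊢
      exact (mul_eq_zero.1 h4).resolve_right hΔ0
  refine ⟨⟨Δ, Q, fun i => (X.iq Δ)⁻¹ • D0 i, hdet, hQeq, hDeq, hDT, ?_⟩⟩
  intro D'
  rw [← sub_eq_zero]
  set D2 : Derivation ℂ X.K X.K :=
    D' - ∑ i, D' (X.iq (linPoly c.T i)) • ((X.iq Δ)⁻¹ • D0 i) with hD2
  have hsum : ∀ f, (∑ i, D' (X.iq (linPoly c.T i)) • ((X.iq Δ)⁻¹ • D0 i) :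
      Derivation ℂ X.K X.K) f = ∑ i, D' (X.iq (linPoly c.T i)) * ((X.iq Δ)⁻¹ • D0 i) f := by
    intro f
    have h5 : ∀ s : Finset (Fin (n + 1)),
        (∑ i ∈ s, D' (X.iq (linPoly c.T i)) • ((X.iq Δ)⁻¹ • D0 i) : Derivation ℂ X.K X.K) f =
          ∑ i ∈ s, D' (X.iq (linPoly c.T i)) * ((X.iq Δ)⁻¹ • D0 i) f := by
      intro s
      induction s using Finset.induction_on with
      | empty => simp
      | insert a s ha ih =>
        rw [Finset.sum_insert ha, Finset.sum_insert ha, Derivation.add_apply, ih,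
          Derivation.smul_apply, smul_eq_mul]
    exact h5 Finset.univ
  have hD2T : ∀ k, D2 (X.iq (linPoly c.T k)) = 0 := by
    intro k
    rw [hD2, Derivation.sub_apply, hsum]
    simp only [hDT]
    simp
  have hrow : ∀ a, ∑ k, X.iq (sysMat e P c.T a k) * D2 (X.iq (MvPolynomial.X k)) = 0 := by
    intro a
    rcases h : e a with j | i
    · have h6 : ∀ k, sysMat e P c.T a k = pderiv k (P j) := by
        intro k
        simp [sysMat, h]
      simp only [h6]
      rw [← X.der_chain D2 (P j), X.iq_eq_zero.2 (hP j), map_zero]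
    · have h6 : ∀ k, sysMat e P c.T a k = pderiv k (linPoly c.T i) := by
        intro k
        simp only [sysMat, Matrix.of_apply, h, Sum.elim_inr]
        simp only [linPoly, map_sum, Derivation.leibniz, pderiv_X, pderiv_C, smul_zero, add_zero,
          smul_eq_mul, Pi.single_apply]
        simp
      simp only [h6]
      rw [← X.der_chain D2 (linPoly c.T i), hD2T i]
  refine X.der_eq_zero fun k => ?_
  have h7 : ((sysMat e P c.T).map X.iq).mulVec (fun k => D2 (X.iq (MvPolynomial.X k))) = 0 := by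
    funext a
    exact hrow a
  have h8 : ((sysMat e P c.T).map X.iq).det ≠ 0 := by
    have h9 : X.iq Δ = ((sysMat e P c.T).map X.iq).det := RingHom.map_det X.iq (sysMat e P c.T)
    rw [← h9]
    exact hΔ0
  exact congrFun (Matrix.eq_zero_of_mulVec_eq_zero h8 h7) k

namespace Frame

variable {X} {y : Fin X.N → ℂ} {c : Chart X.toSCone y} (Fr : Frame X y c)

theorem D_mem_reg (i : Fin (n + 1)) (P : MvPolynomial (Fin X.N) ℂ) :
    Fr.D i (X.iq P) ∈ X.reg y := ⟨_, Fr.Δ, Fr.Δ_ne, Fr.D_eq i P⟩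

theorem regDer (i : Fin (n + 1)) {f : X.K} (hy : y ∈ X.Y) (hf : f ∈ X.reg y) :
    Fr.D i f ∈ X.reg y := by
  obtain ⟨A, B, hB, h⟩ := hf
  have hB0 : X.iq B ≠ 0 := X.iq_ne_zero_of_eval hy hB
  have h1 : Fr.D i (X.iq A) = f * Fr.D i (X.iq B) + X.iq B * Fr.D i f := by
    rw [← h, Derivation.leibniz, smul_eq_mul, smul_eq_mul]
  have h2 : Fr.D i f * X.iq B = Fr.D i (X.iq A) - f * Fr.D i (X.iq B) := by
    rw [h1]
    ring
  refine X.mem_reg_of_mul hB ?_
  rw [h2]
  exact Subring.sub_mem _ (Fr.D_mem_reg i A)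
    (Subring.mul_mem _ ⟨A, B, hB, h⟩ (Fr.D_mem_reg i B))

end Frame

end

end Vale.Agent.P271.Br
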