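import Mathlib
import Vale.Agent.P271.H311.Dual

/-!
# P271, block BRIDGE, part 7: the holomorphic form on `U` given by a regular rational form
-/

open MvPolynomial Set Filter Metric Topology

namespace Vale.Agent.P271.Br

open Vale.Agent.P271.Cone Vale.Agent.P271.Deg

variable {n : ℕ}

/-- The determinant as a continuous alternating form. -/
noncomputable def detForm : (Fin (n + 1) → ℂ) [⋀^Fin (n + 1)]→L[ℂ] ℂ :=
  { (Matrix.detRowAlternating : (Fin (n + 1) → ℂ) [⋀^Fin (n + 1)]→ₗ[ℂ] ℂ) with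
    cont := by
      show Continuous fun M : Fin (n + 1) → Fin (n + 1) → ℂ => Matrix.det (Matrix.of M)
      exact Continuous.matrix_det continuous_id }

theorem detForm_apply (v : Fin (n + 1) → Fin (n + 1) → ℂ) :
    detForm v = (Matrix.of v).det := rfl

/-! ### The action on tangent vectors -/

/-- The action as a linear map. -/
noncomputable def actL {N : ℕ} (w : Fin N → ℕ) (t : ℂ) : (Fin N → ℂ) →L[ℂ] (Fin N → ℂ) :=
  ContinuousLinearMap.pi fun i => t ^ w i • (ContinuousLinearMap.proj i : (Fin N → ℂ) →L[ℂ] ℂ)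

theorem actL_apply {N : ℕ} (w : Fin N → ℕ) (t : ℂ) (x : Fin N → ℂ) : actL w t x = act w t x := by
  funext i
  simp [actL, act]

theorem dpoly_act {N : ℕ} {w : Fin N → ℕ} {P : MvPolynomial (Fin N) ℂ} {d : ℕ}
    (hP : IsWeightedHomogeneous w P d) (t : ℂ) (x v : Fin N → ℂ) :
    dpoly P (act w t x) (act w t v) = t ^ d * dpoly P x v := by
  have h1 : HasFDerivAt (fun x : Fin N → ℂ => eval (actL w t x) P)
      ((dL P (actL w t x)).comp (actL w t)) x :=
    (hasFDerivAt_eval P (actL w t x)).comp x (actL w t).hasFDerivAt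
  have h2 : HasFDerivAt (fun x : Fin N → ℂ => eval (actL w t x) P) (t ^ d • dL P x) x := by
    have : (fun x : Fin N → ℂ => eval (actL w t x) P) = fun x => t ^ d * eval x P := by
      funext x
      rw [actL_apply, eval_act hP]
    rw [this]
    exact (hasFDerivAt_eval P x).const_mul (t ^ d)
  have h3 := congrArg (fun L : (Fin N → ℂ) →L[ℂ] ℂ => L v) (h1.unique h2)
  simpa [dL_apply, actL_apply] using h3

theorem dpoly_sum {N : ℕ} {ι : Type*} (s : Finset ι) (P : ι → MvPolynomial (Fin N) ℂ)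
    (x v : Fin N → ℂ) : dpoly (∑ i ∈ s, P i) x v = ∑ i ∈ s, dpoly (P i) x v := by
  classical
  induction s using Finset.induction_on with
  | empty => simp [dpoly]
  | insert a s ha ih => rw [Finset.sum_insert ha, Finset.sum_insert ha, dpoly_add, ih]

theorem SCone.act_mem_tangent (X : SCone n) (t : ℂ) {x v : Fin X.N → ℂ} (hv : v ∈ X.tangent x) :
    act X.w t v ∈ X.tangent (act X.w t x) := by
  intro P hP
  obtain ⟨D, hD⟩ := exists_component_bound X.w P
  have h1 : P = ∑ d ∈ Finset.range D, weightedHomogeneousComponent X.w d P := by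
    conv_lhs => rw [← sum_weightedHomogeneousComponent X.w P]
    rw [finsum_eq_sum_of_support_subset]
    intro d hd
    rw [Function.mem_support] at hd
    rw [Finset.coe_range, mem_Iio]
    by_contra h
    exact hd (hD d (not_lt.1 h))
  rw [h1, dpoly_sum]
  refine Finset.sum_eq_zero fun d _ => ?_
  rw [dpoly_act (weightedHomogeneousComponent_isWeightedHomogeneous (w := X.w) d P),
    hv _ (X.homog P hP d), mul_zero]

/-! ### The data -/

/-- A homogeneous rational form `(Pa/Pb) dZ_0 ∧ … ∧ dZ_n` regular on `U`. -/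
structure FData (X : PCone n) (m : ℕ) where
  Z : Fin (n + 1) → MvPolynomial (Fin X.N) ℂ
  dg : Fin (n + 1) → ℕ
  Pa : MvPolynomial (Fin X.N) ℂ
  Pb : MvPolynomial (Fin X.N) ℂ
  ia : ℕ
  ib : ℕ
  hZ : ∀ k, IsWeightedHomogeneous X.w (Z k) (dg k)
  hPa : IsWeightedHomogeneous X.w Pa ia
  hPb : IsWeightedHomogeneous X.w Pb ib
  hPb0 : Pb ∉ X.I
  hdeg : ia + ∑ k, dg k = m + ib
  hreg : ∀ y ∈ X.U, ∀ D : Fin (n + 1) → Derivation ℂ X.K X.K,
    (∀ k, ∀ f ∈ X.reg y, D k f ∈ X.reg y) →
      X.iq Pa / X.iq Pb * (Matrix.of fun i k => D i (X.iq (Z k))).det ∈ X.reg y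

namespace FData

variable {X : PCone n} {m : ℕ} (F : FData X m)

/-- A local representation of the form. -/
structure LocRep (y : Fin X.N → ℂ) where
  c : Chart X.toSCone y
  Fr : Frame X y c
  A : MvPolynomial (Fin X.N) ℂ
  B : MvPolynomial (Fin X.N) ℂ
  B_ne : eval y B ≠ 0
  eq : X.iq F.Pa / X.iq F.Pb *
    (Matrix.of fun i k => Fr.D i (X.iq (F.Z k))).det * X.iq B = X.iq A

theorem exists_locRep {y : Fin X.N → ℂ} (hy : y ∈ X.U) : Nonempty (F.LocRep y) := by
  obtain ⟨c, -⟩ := exists_chart X.toSCone hy isOpen_univ (mem_univ _)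
  obtain ⟨Fr⟩ := exists_frame X hy c
  obtain ⟨A, B, hB, h⟩ := F.hreg y hy Fr.D (fun k f hf => Fr.regDer k hy.2 hf)
  exact ⟨⟨c, Fr, A, B, hB, h⟩⟩

namespace LocRep

variable {F} {y : Fin X.N → ℂ} (L : F.LocRep y)

/-- The open set where the representation is valid. -/
def O : Set (Fin X.N → ℂ) := L.c.V ∩ ({x | eval x L.B ≠ 0} ∩ {x | eval x L.Fr.Δ ≠ 0})

theorem isOpen_O : IsOpen L.O := by
  refine L.c.isOpen.inter (IsOpen.inter ?_ ?_)
  · exact isOpen_ne_fun (contDiff_eval (k := 0) L.B).continuous continuous_const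
  · exact isOpen_ne_fun (contDiff_eval (k := 0) L.Fr.Δ).continuous continuous_const

theorem mem_O : y ∈ L.O := ⟨L.c.mem, L.B_ne, L.Fr.Δ_ne⟩

/-- The local form. -/
noncomputable def ω (x : Fin X.N → ℂ) : (Fin X.N → ℂ) [⋀^Fin (n + 1)]→L[ℂ] ℂ :=
  (eval x L.A / eval x L.B) • detForm.compContinuousLinearMap L.c.T

theorem ω_apply (x : Fin X.N → ℂ) (v : Fin (n + 1) → Fin X.N → ℂ) :
    L.ω x v = eval x L.A / eval x L.B * (Matrix.of fun l => L.c.T (v l)).det := rfl

theorem key {x : Fin X.N → ℂ} (hx : x ∈ X.U ∩ L.O) {v : Fin (n + 1) → Fin X.N → ℂ}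
    (hv : ∀ l, v l ∈ X.tangent x) :
    eval x F.Pb * L.ω x v = eval x F.Pa *
      (Matrix.of fun l k => dpoly (F.Z k) x (v l)).det := by
  obtain ⟨hxU, hxV, hxB, hxΔ⟩ := hx
  have hxB' : eval x L.B ≠ 0 := hxB
  have hxΔ' : eval x L.Fr.Δ ≠ 0 := hxΔ
  have hPb : X.iq F.Pb ≠ 0 := by
    rw [Ne, X.iq_eq_zero]
    exact F.hPb0
  -- the identity in the function field
  set M : Matrix (Fin (n + 1)) (Fin (n + 1)) (MvPolynomial (Fin X.N) ℂ) :=
    Matrix.of fun i k => mkDerivation ℂ (L.Fr.Q i) (F.Z k) with hM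
  have h1 : (Matrix.of fun i k => L.Fr.D i (X.iq (F.Z k))).det * X.iq L.Fr.Δ ^ (n + 1) =
      X.iq M.det := by
    have h2 : (M.map X.iq) = (X.iq L.Fr.Δ) • (Matrix.of fun i k => L.Fr.D i (X.iq (F.Z k))) := by
      ext i k
      simp only [hM, Matrix.map_apply, Matrix.of_apply, Matrix.smul_apply, smul_eq_mul]
      rw [← L.Fr.D_eq i (F.Z k), mul_comm]
    have h3 : X.iq M.det = (M.map X.iq).det := RingHom.map_det X.iq M
    rw [h3, h2, Matrix.det_smul, Fintype.card_fin, mul_comm]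
  have h4 : X.iq (F.Pa * M.det * L.B) = X.iq (L.A * F.Pb * L.Fr.Δ ^ (n + 1)) := by
    simp only [map_mul, map_pow]
    rw [← h1, ← L.eq]
    field_simp
  have h5 := X.iq_inj h4 hxU.2
  simp only [map_mul, map_pow] at h5
  -- evaluation of the determinant
  set J : Matrix (Fin (n + 1)) (Fin (n + 1)) ℂ :=
    Matrix.of fun i k => dpoly (F.Z k) x (fderiv ℂ L.c.ψ (L.c.T x) (Pi.single i 1)) with hJ
  have h6 : eval x M.det = eval x L.Fr.Δ ^ (n + 1) * J.det := by
    have h7 : M.map (eval x) = (eval x L.Fr.Δ) • J := by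
      ext i k
      simp only [hM, hJ, Matrix.map_apply, Matrix.of_apply, Matrix.smul_apply, smul_eq_mul]
      rw [eval_mkDerivation]
      have h8 : (fun k => eval x (L.Fr.Q i k)) =
          eval x L.Fr.Δ • fderiv ℂ L.c.ψ (L.c.T x) (Pi.single i 1) := by
        funext k
        rw [L.Fr.Q_eq x ⟨hxU, hxV⟩ i k]
        rfl
      rw [h8, ← dL_apply, map_smul, dL_apply]
      rfl
    have h9 : eval x M.det = (M.map (eval x)).det := RingHom.map_det (eval x) M
    rw [h9, h7, Matrix.det_smul, Fintype.card_fin]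
  rw [h6] at h5
  have h10 : eval x F.Pa * J.det * eval x L.B = eval x L.A * eval x F.Pb := by
    have h11 : eval x L.Fr.Δ ^ (n + 1) ≠ 0 := pow_ne_zero _ hxΔ'
    apply mul_right_cancel₀ h11
    linear_combination h5
  -- the tangent vectors
  have h12 : (Matrix.of fun l k => dpoly (F.Z k) x (v l)) =
      (Matrix.of fun l => L.c.T (v l)) * J := by
    ext l k
    simp only [Matrix.of_apply, Matrix.mul_apply, hJ]
    have h13 : v l = ∑ i, L.c.T (v l) i • fderiv ℂ L.c.ψ (L.c.T x) (Pi.single i 1) := by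
      conv_lhs => rw [← L.c.tangent_le x ⟨hxU, hxV⟩ (v l) (hv l)]
      have h14 : L.c.T (v l) = ∑ i, L.c.T (v l) i • (Pi.single i 1 : Fin (n + 1) → ℂ) := by
        funext j
        simp [Finset.sum_apply, Pi.single_apply]
      conv_lhs => rw [h14]
      rw [map_sum]
      exact Finset.sum_congr rfl fun i _ => by rw [map_smul]
    conv_lhs => rw [h13]
    rw [← dL_apply, map_sum]
    refine Finset.sum_congr rfl fun i _ => ?_
    rw [map_smul, dL_apply, smul_eq_mul]
  rw [ω_apply, h12, Matrix.det_mul]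
  have h15 : eval x F.Pb * (eval x L.A / eval x L.B) = eval x F.Pa * J.det := by
    field_simp
    linear_combination -h10
  linear_combination (Matrix.of fun l => L.c.T (v l)).det * h15

/-- Joint continuity. -/
theorem tendsto_ω {ι : Type*} {l : Filter ι} {x₀ : Fin X.N → ℂ} (hx₀ : eval x₀ L.B ≠ 0)
    {v₀ : Fin (n + 1) → Fin X.N → ℂ} {x : ι → Fin X.N → ℂ} {v : ι → Fin (n + 1) → Fin X.N → ℂ}
    (hx : Tendsto x l (𝓝 x₀)) (hv : Tendsto v l (𝓝 v₀)) :
    Tendsto (fun i => L.ω (x i) (v i)) l (𝓝 (L.ω x₀ v₀)) := by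
  simp only [ω_apply]
  have hA : Tendsto (fun i => eval (x i) L.A) l (𝓝 (eval x₀ L.A)) :=
    ((contDiff_eval (k := 0) L.A).continuous.tendsto x₀).comp hx
  have hB : Tendsto (fun i => eval (x i) L.B) l (𝓝 (eval x₀ L.B)) :=
    ((contDiff_eval (k := 0) L.B).continuous.tendsto x₀).comp hx
  refine (hA.div hB hx₀).mul ?_
  have hc : Continuous fun v : Fin (n + 1) → Fin X.N → ℂ =>
      (Matrix.of fun l => L.c.T (v l)).det := by
    refine Continuous.matrix_det ?_
    refine continuous_pi fun l => ?_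
    exact L.c.T.continuous.comp (continuous_apply l)
  exact (hc.tendsto v₀).comp hv

theorem differentiableOn_ω : DifferentiableOn ℂ L.ω L.O := by
  intro x hx
  have hB : eval x L.B ≠ 0 := hx.2.1
  have hA' : DifferentiableAt ℂ (fun x : Fin X.N → ℂ => eval x L.A) x :=
    (hasFDerivAt_eval L.A x).differentiableAt
  have hB' : DifferentiableAt ℂ (fun x : Fin X.N → ℂ => eval x L.B) x :=
    (hasFDerivAt_eval L.B x).differentiableAt
  have h1 : DifferentiableAt ℂ (fun x : Fin X.N → ℂ => eval x L.A / eval x L.B) x := by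
    simp only [div_eq_mul_inv]
    exact hA'.mul (hB'.inv hB)
  exact (h1.smul_const _).differentiableWithinAt

end LocRep

end FData

end Vale.Agent.P271.Br
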