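import Vale.Agent.P271.H311.RegPt

/-!
P271 (helper311), block GLOB-B, part (END): from the global `L²` theorem on the cone to a generator of
`K + mL` at a point.
-/

set_option linter.unusedSectionVars false

open MeasureTheory Filter Topology Metric
open scoped ENNReal NNReal Vale.Agent.P271.Inst

namespace Vale.Agent.P271.Br

open Vale.Agent.P282.L2 Vale.Agent.P271.Sch Vale.Agent.P271.H741 Vale.Agent.P271.Inst

/-- Square integrable forms are regular. -/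
def L2Reg : Prop :=
  ∀ (n : ℕ) (C : GCone n) (φ : C.Pt), GCone.NV φ → ∀ (z : Fin (n + 1) → C.R) (a b : C.R), b ≠ 0 →
    (∀ c : Chart φ (n + 1), LInt 0 fun x => ENNReal.ofReal (‖c.ψ x a / c.ψ x b *
      (Matrix.of fun i j => fderiv ℂ (fun y => c.ψ y (z i)) x (Pi.single j 1)).det‖ ^ 2)) →
    ∀ D : Fin (n + 1) → Derivation ℂ C.K C.K, (∀ k, GCone.RegDer φ (D k)) →
      GCone.RegAt φ (algebraMap C.R C.K a / algebraMap C.R C.K b * GCone.jac z D)

variable {n : ℕ} {C : GCone n} {φ₀ : C.Pt}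

theorem continuousAt_c {m : ℕ} (c : Chart φ₀ m) (r : C.R) :
    ContinuousAt (fun x => c.ψ x r) 0 := (c.holo r 0 c.mem0).continuousAt

/-- The comparison near `φ₀`. -/
theorem lint_of_ne {g : C.Pt → ℝ≥0∞} (c : Chart φ₀ (n + 1)) {z : Fin (n + 1) → C.R}
    (hjc : (Matrix.of fun i j => fderiv ℂ (fun y => c.ψ y (z i)) 0 (Pi.single j 1)).det ≠ 0)
    {a b a' b' : C.R} (hab : a * b' = a' * b) (hb' : φ₀ b' ≠ 0)
    {E : C.Pt → ℂ} (hE : ContinuousAt (fun x => E (c.ψ x)) 0) (hE0 : E φ₀ ≠ 0)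
    (hne : φ₀ a' / φ₀ b' ≠ E φ₀)
    (h : LInt 0 fun x => ENNReal.ofReal (‖(c.ψ x a / c.ψ x b - E (c.ψ x)) *
      (Matrix.of fun i j => fderiv ℂ (fun y => c.ψ y (z i)) x (Pi.single j 1)).det‖ ^ 2) *
        g (c.ψ x)) :
    LInt 0 fun x => g (c.ψ x) := by
  set J : (Fin (n + 1) → ℂ) → ℂ := fun x =>
    (Matrix.of fun i j => fderiv ℂ (fun y => c.ψ y (z i)) x (Pi.single j 1)).det with hJ
  have hJc : ContinuousAt J 0 := continuousAt_jc c
  have h1 : ContinuousAt (fun x => ‖(c.ψ x a' / c.ψ x b' - E (c.ψ x)) * J x‖) 0 := by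
    refine (((continuousAt_c c a').div (continuousAt_c c b') ?_).sub hE |>.mul hJc).norm
    rw [c.zero]
    exact hb'
  have h2 : ContinuousAt (fun x => ‖(0 - E (c.ψ x)) * J x‖) 0 :=
    ((continuousAt_const.sub hE).mul hJc).norm
  have p1 : 0 < ‖(c.ψ 0 a' / c.ψ 0 b' - E (c.ψ 0)) * J 0‖ := by
    rw [norm_pos_iff, c.zero]
    exact mul_ne_zero (sub_ne_zero.2 hne) hjc
  have p2 : 0 < ‖(0 - E (c.ψ 0)) * J 0‖ := by
    rw [norm_pos_iff, c.zero]
    exact mul_ne_zero (by rw [zero_sub]; exact neg_ne_zero.2 hE0) hjc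
  obtain ⟨d, hd, hd1⟩ := exists_between (lt_min p1 p2)
  have e1 : ∀ᶠ x in 𝓝 (0 : Fin (n + 1) → ℂ), d < ‖(c.ψ x a' / c.ψ x b' - E (c.ψ x)) * J x‖ :=
    h1.eventually (lt_mem_nhds (hd1.trans_le (min_le_left _ _)))
  have e2 : ∀ᶠ x in 𝓝 (0 : Fin (n + 1) → ℂ), d < ‖(0 - E (c.ψ x)) * J x‖ :=
    h2.eventually (lt_mem_nhds (hd1.trans_le (min_le_right _ _)))
  have e3 : ∀ᶠ x in 𝓝 (0 : Fin (n + 1) → ℂ), c.ψ x b' ≠ 0 := by
    refine (continuousAt_c c b').eventually_ne ?_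
    rw [c.zero]
    exact hb'
  have hK : ENNReal.ofReal (d ^ 2) ≠ 0 := by
    rw [Ne, ENNReal.ofReal_eq_zero, not_le]
    positivity
  refine (h.const_mul (C := (ENNReal.ofReal (d ^ 2))⁻¹) (ENNReal.inv_ne_top.2 hK)).mono ?_
  filter_upwards [e1, e2, e3] with x h3 h4 h5
  have h6 : d < ‖(c.ψ x a / c.ψ x b - E (c.ψ x)) * J x‖ := by
    by_cases hb : c.ψ x b = 0
    · rw [hb, div_zero]
      exact h4
    · have h7 : c.ψ x a / c.ψ x b = c.ψ x a' / c.ψ x b' := by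
        rw [div_eq_div_iff hb h5, ← map_mul, ← map_mul, hab]
      rw [h7]
      exact h3
  have h8 : ENNReal.ofReal (d ^ 2) ≤
      ENNReal.ofReal (‖(c.ψ x a / c.ψ x b - E (c.ψ x)) * J x‖ ^ 2) := by
    apply ENNReal.ofReal_le_ofReal
    gcongr
  calc g (c.ψ x) = (ENNReal.ofReal (d ^ 2))⁻¹ * (ENNReal.ofReal (d ^ 2) * g (c.ψ x)) := by
        rw [← mul_assoc, ENNReal.inv_mul_cancel hK ENNReal.ofReal_ne_top, one_mul]
    _ ≤ _ := by gcongr

section core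

variable [Algebra (Pol (n + 1)) C.K] [IsScalarTower ℂ (Pol (n + 1)) C.K]
  [FaithfulSMul (Pol (n + 1)) C.K] {V : Cov C} {T : Tube V φ₀} {w : RWeight C} {m : ℕ}
  {a b : C.R} {i j : ℕ} {l : ℤ}

/-- The form is regular. -/
theorem CoreOut.reg (hL : L2Reg) (h : CoreOut V T w m a b i j l) {φ : C.Pt} (hφ : GCone.NV φ)
    {D : Fin (n + 1) → Derivation ℂ C.K C.K} (hD : ∀ k, GCone.RegDer φ (D k)) :
    GCone.RegAt φ (algebraMap C.R C.K a / algebraMap C.R C.K b * GCone.jac V.z D) :=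
  hL n C φ hφ V.z a b h.b_ne (fun c => h.l2 φ hφ c) D hD

theorem vP_self (T : Tube V φ₀) : T.vP φ₀ = 0 := by
  rw [Tube.vP]
  simp

/-- The function `e` is continuous near `φ₀`. -/
theorem continuousAt_eP (T : Tube V φ₀) (c : Chart φ₀ (n + 1)) (l : ℤ) :
    ContinuousAt (fun x => T.eP (c.ψ x) ^ l) 0 := by
  have h1 : ContinuousAt (fun x => T.eP (c.ψ x)) 0 := by
    refine (continuousAt_c c (T.x T.i1)).div (continuousAt_c c (T.x T.i0)) ?_
    rw [c.zero]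
    exact T.ne0
  refine h1.zpow₀ l (Or.inl ?_)
  rw [c.zero]
  exact T.good₀.e_ne

/-- At a point where the weight is not integrable the form has the value of `e^l`. -/
theorem CoreOut.value (h : CoreOut V T w m a b i j l) (hφ : GCone.NV φ₀)
    (hw : ¬ IntAt (n + 1) φ₀ w.val) {D : Fin (n + 1) → Derivation ℂ C.K C.K}
    (hD : ∀ k, GCone.RegDer φ₀ (D k)) (hJ : GCone.jac V.z D ≠ 0)
    (hJi : GCone.RegAt φ₀ (GCone.jac V.z D)⁻¹)
    (hf : GCone.RegAt φ₀ (algebraMap C.R C.K a / algebraMap C.R C.K b)) :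
    vl φ₀ (algebraMap C.R C.K a / algebraMap C.R C.K b) = T.eP φ₀ ^ l := by
  obtain ⟨c, hgen⟩ := H879.cone_exists_chart hφ
  obtain ⟨h1, h2⟩ := vl_jac (z := V.z) hD c hgen
  have h3 : vl φ₀ (GCone.jac V.z D) ≠ 0 := vl_ne_of_inv h1 hJi hJ
  rw [h2] at h3
  have hjc := right_ne_zero_of_mul h3
  obtain ⟨a', b', hb', hab⟩ := hf
  rw [vl_eq hb' hab]
  by_contra hne
  have hbK : algebraMap C.R C.K b ≠ 0 := fun h0 => h.b_ne (alg_inj (by rw [h0, map_zero]))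
  have hab' : a * b' = a' * b := by
    apply alg_inj
    rw [map_mul, map_mul, ← hab]
    field_simp
  obtain ⟨r1, hr1, hnear⟩ := h.near
  have h4 := hnear φ₀ T.good₀ (by rw [vP_self]; exact hr1) c
  have h5 : LInt 0 fun x => w.val (c.ψ x) := lint_of_ne (g := w.val)
    (E := fun χ => T.eP χ ^ l) c hjc hab' hb'
    (continuousAt_eP T c l) (zpow_ne_zero l T.good₀.e_ne) hne h4
  exact hw ((c.intAt_iff).2 h5)

/-- The form is regular and a unit multiple of `dz_0 ∧ … ∧ dz_n` at a point where the weight is not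
integrable. -/
theorem CoreOut.unit (hL : L2Reg) (h : CoreOut V T w m a b i j l) (hφ : GCone.NV φ₀)
    (hw : ¬ IntAt (n + 1) φ₀ w.val) {D : Fin (n + 1) → Derivation ℂ C.K C.K}
    (hD : ∀ k, GCone.RegDer φ₀ (D k)) (hJ : GCone.jac V.z D ≠ 0)
    (hJi : GCone.RegAt φ₀ (GCone.jac V.z D)⁻¹) :
    (∀ φ : C.Pt, GCone.NV φ → ∀ D' : Fin (n + 1) → Derivation ℂ C.K C.K,
      (∀ k, GCone.RegDer φ (D' k)) →
        GCone.RegAt φ (algebraMap C.R C.K a / algebraMap C.R C.K b * GCone.jac V.z D')) ∧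
    ∃ a' b' : C.R, φ₀ a' ≠ 0 ∧ φ₀ b' ≠ 0 ∧
      algebraMap C.R C.K a / algebraMap C.R C.K b * algebraMap C.R C.K b' =
        algebraMap C.R C.K a' := by
  refine ⟨fun φ hφ' D' hD' => CoreOut.reg hL h hφ' hD', ?_⟩
  have hf : GCone.RegAt φ₀ (algebraMap C.R C.K a / algebraMap C.R C.K b) := by
    have h2 := (rg φ₀).mul_mem (CoreOut.reg hL h hφ hD) hJi
    rwa [mul_assoc, mul_inv_cancel₀ hJ, mul_one] at h2
  have h3 := CoreOut.value h hφ hw hD hJ hJi hf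
  obtain ⟨a', b', hb', hab⟩ := hf
  rw [vl_eq hb' hab] at h3
  refine ⟨a', b', fun h0 => ?_, hb', hab⟩
  rw [h0, zero_div] at h3
  exact zpow_ne_zero l T.good₀.e_ne h3.symm

end core

/-- The final step: a weight which is not integrable exactly at `φ₀` gives a generator. -/
theorem globEnd_of (hL : L2Reg) (hcore : CoreStatement)
    (hnp : ∀ (n : ℕ) (C : GCone n) (φ₀ : C.Pt), GCone.NV φ₀ → Nonempty (Np C φ₀)) : GlobEnd := by
  intro n C m φ₀ hφ₀ w hdeg hw hnear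
  obtain ⟨P⟩ := hnp n C φ₀ hφ₀
  let _ := P.alg
  have := P.tower
  have := P.faithful
  obtain ⟨D, hD, -, hJ, hJi⟩ := P.etale
  have hev : ∀ᶠ φ in 𝓝 φ₀, (∀ t : ℂ, t ≠ 0 → GCone.tact t φ₀ ≠ φ) → IntAt (n + 1) φ w.val := by
    obtain ⟨F, ε, hε, h⟩ := hnear
    filter_upwards [nhds_finset φ₀ F hε] with φ hφ
    exact h φ hφ
  obtain ⟨a, b, i, j, h⟩ := hcore n C P.V φ₀ P.T w m hdeg hev
  obtain ⟨h1, a', b', ha', hb', hab⟩ := CoreOut.unit hL h hφ₀ hw hD hJ hJi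
  have hf : algebraMap C.R C.K a / algebraMap C.R C.K b ∈ rg φ₀ := ⟨a', b', hb', hab⟩
  have h4 : vl φ₀ (algebraMap C.R C.K a / algebraMap C.R C.K b) ≠ 0 := by
    rw [vl_eq hb' hab]
    exact div_ne_zero ha' hb'
  have hf0 : algebraMap C.R C.K a / algebraMap C.R C.K b ≠ 0 := by
    intro h0
    rw [h0, vl_zero] at h4
    exact h4 rfl
  refine ⟨P.V.z, fun _ => P.V.N, a, b, i, j, P.V.z_mem, h.a_mem, h.b_mem, h.b_ne, ?_, h1, D, hD,
    mul_ne_zero hf0 hJ, ?_⟩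
  · rw [Finset.sum_const, Finset.card_univ, Fintype.card_fin, smul_eq_mul]
    exact h.deg
  · rw [mul_inv]
    exact (rg φ₀).mul_mem (inv_mem_rg hf h4) hJi

end Vale.Agent.P271.Br
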