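import Mathlib
import Vale.Agent.P271.H311.Form

/-!
# P271, block BRIDGE, part 8: gluing, the section, `HubFujita → FujitaFreeness`
-/

open MvPolynomial Set Filter Metric Topology

namespace Vale.Agent.P271.Br

open Vale.Agent.P271.Cone Vale.Agent.P271.Deg

variable {n : ℕ}

theorem exists_tangent_extension (X : SCone n) {x₀ : Fin X.N → ℂ} (hx₀ : x₀ ∈ X.U)
    {v : Fin (n + 1) → Fin X.N → ℂ} (hv : ∀ l, v l ∈ X.tangent x₀) :
    ∃ V : (Fin X.N → ℂ) → Fin (n + 1) → Fin X.N → ℂ,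
      (∀ᶠ x in 𝓝 x₀, x ∈ X.U → ∀ l, V x l ∈ X.tangent x) ∧ Tendsto V (𝓝 x₀) (𝓝 v) := by
  obtain ⟨c, -⟩ := exists_chart X hx₀ isOpen_univ (mem_univ _)
  refine ⟨fun x l => fderiv ℂ c.ψ (c.T x) (c.T (v l)), ?_, ?_⟩
  · filter_upwards [c.isOpen.mem_nhds c.mem] with x hxV hxU l
    have h1 := c.fderiv_mem_tangent (c.T_mem x ⟨hxU, hxV⟩) (c.T (v l))
    rwa [c.ψ_T x ⟨hxU, hxV⟩] at h1
  · rw [tendsto_pi_nhds]
    intro l
    have h1 : ContinuousAt (fderiv ℂ c.ψ) (c.T x₀) :=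
      ((c.an _ (mem_ball_self c.ε_pos)).fderiv).continuousAt
    have h2 : Tendsto (fun x => fderiv ℂ c.ψ (c.T x)) (𝓝 x₀) (𝓝 (fderiv ℂ c.ψ (c.T x₀))) :=
      h1.tendsto.comp (c.T.continuous.tendsto x₀)
    have h3 : Tendsto (fun x => fderiv ℂ c.ψ (c.T x) (c.T (v l))) (𝓝 x₀)
        (𝓝 (fderiv ℂ c.ψ (c.T x₀) (c.T (v l)))) :=
      ((ContinuousLinearMap.apply ℂ (Fin X.N → ℂ) (c.T (v l))).continuous.tendsto _).comp h2
    rwa [c.tangent_le x₀ ⟨hx₀, c.mem⟩ (v l) (hv l)] at h3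

namespace FData

variable {X : PCone n} {m : ℕ} (F : FData X m)

/-- The filter of points near `x₀` where `Pb ≠ 0`. -/
noncomputable def flt (x₀ : Fin X.N → ℂ) : Filter (Fin X.N → ℂ) := 𝓝[{x | x ∈ X.U ∧ eval x F.Pb ≠ 0}] x₀

theorem flt_neBot {x₀ : Fin X.N → ℂ} (hx₀ : x₀ ∈ X.U) : (F.flt x₀).NeBot :=
  mem_closure_iff_nhdsWithin_neBot.1 (X.mem_closure hx₀ F.hPb0)

theorem flt_le {x₀ : Fin X.N → ℂ} : F.flt x₀ ≤ 𝓝 x₀ := nhdsWithin_le_nhds

theorem flt_mem {x₀ : Fin X.N → ℂ} : ∀ᶠ x in F.flt x₀, x ∈ X.U ∧ eval x F.Pb ≠ 0 :=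
  self_mem_nhdsWithin

theorem consistent {y y' : Fin X.N → ℂ} (L : F.LocRep y) (L' : F.LocRep y')
    {x₀ : Fin X.N → ℂ} (hx₀ : x₀ ∈ X.U) (hL : x₀ ∈ L.O) (hL' : x₀ ∈ L'.O)
    {v : Fin (n + 1) → Fin X.N → ℂ} (hv : ∀ l, v l ∈ X.tangent x₀) :
    L.ω x₀ v = L'.ω x₀ v := by
  obtain ⟨V, hV, hVv⟩ := exists_tangent_extension X.toSCone hx₀ hv
  have := F.flt_neBot hx₀
  have h1 : Tendsto (fun x => L.ω x (V x)) (F.flt x₀) (𝓝 (L.ω x₀ v)) :=
    L.tendsto_ω hL.2.1 (F.flt_le (x₀ := x₀)) (hVv.mono_left F.flt_le)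
  have h2 : Tendsto (fun x => L'.ω x (V x)) (F.flt x₀) (𝓝 (L'.ω x₀ v)) :=
    L'.tendsto_ω hL'.2.1 (F.flt_le (x₀ := x₀)) (hVv.mono_left F.flt_le)
  refine tendsto_nhds_unique_of_eventuallyEq h1 h2 ?_
  filter_upwards [F.flt_mem, F.flt_le (L.isOpen_O.mem_nhds hL), F.flt_le (L'.isOpen_O.mem_nhds hL'),
    F.flt_le hV] with x hx hxL hxL' hxV
  have h3 := L.key ⟨hx.1, hxL⟩ (hxV hx.1)
  have h4 := L'.key ⟨hx.1, hxL'⟩ (hxV hx.1)
  exact mul_left_cancel₀ hx.2 (h3.trans h4.symm)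

/-- The chosen local representation. -/
noncomputable def rep {y : Fin X.N → ℂ} (hy : y ∈ X.U) : F.LocRep y :=
  (F.exists_locRep hy).some

open Classical in
/-- The global form. -/
noncomputable def form (x : Fin X.N → ℂ) : (Fin X.N → ℂ) [⋀^Fin (n + 1)]→L[ℂ] ℂ :=
  if h : x ∈ X.U then (F.rep h).ω x else 0

theorem form_eq {y : Fin X.N → ℂ} (L : F.LocRep y) {x : Fin X.N → ℂ} (hx : x ∈ X.U)
    (hL : x ∈ L.O) {v : Fin (n + 1) → Fin X.N → ℂ} (hv : ∀ l, v l ∈ X.tangent x) :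
    F.form x v = L.ω x v := by
  rw [form, dif_pos hx]
  exact F.consistent (F.rep hx) L hx (F.rep hx).mem_O hL hv

theorem form_homogeneous {t : ℂ} (ht : t ≠ 0) {x₀ : Fin X.N → ℂ} (hx₀ : x₀ ∈ X.U)
    {v : Fin (n + 1) → Fin X.N → ℂ} (hv : ∀ l, v l ∈ X.tangent x₀) :
    F.form (act X.w t x₀) (fun l => act X.w t (v l)) = t ^ m * F.form x₀ v := by
  have htx₀ : act X.w t x₀ ∈ X.U := X.toSCone.act_mem_U ht hx₀
  set L := F.rep hx₀ with hL
  set L' := F.rep htx₀ with hL'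
  rw [F.form_eq L hx₀ L.mem_O hv,
    F.form_eq L' htx₀ L'.mem_O (fun l => X.toSCone.act_mem_tangent t (hv l))]
  obtain ⟨V, hV, hVv⟩ := exists_tangent_extension X.toSCone hx₀ hv
  have := F.flt_neBot hx₀
  have hact : Tendsto (fun x => act X.w t x) (F.flt x₀) (𝓝 (act X.w t x₀)) := by
    simp only [← actL_apply]
    exact ((actL X.w t).continuous.tendsto x₀).mono_left F.flt_le
  have hactV : Tendsto (fun x => fun l => act X.w t (V x l)) (F.flt x₀)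
      (𝓝 (fun l => act X.w t (v l))) := by
    simp only [← actL_apply]
    rw [tendsto_pi_nhds]
    intro l
    exact (((actL X.w t).continuous.tendsto (v l)).comp
      ((tendsto_pi_nhds.1 hVv) l)).mono_left F.flt_le
  have h1 : Tendsto (fun x => L'.ω (act X.w t x) (fun l => act X.w t (V x l))) (F.flt x₀)
      (𝓝 (L'.ω (act X.w t x₀) (fun l => act X.w t (v l)))) :=
    L'.tendsto_ω L'.mem_O.2.1 hact hactV
  have hid : Tendsto (fun x => x) (F.flt x₀) (𝓝 x₀) := F.flt_le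
  have h2 : Tendsto (fun x => t ^ m * L.ω x (V x)) (F.flt x₀) (𝓝 (t ^ m * L.ω x₀ v)) :=
    (L.tendsto_ω L.mem_O.2.1 hid (hVv.mono_left F.flt_le)).const_mul _
  refine tendsto_nhds_unique_of_eventuallyEq h1 h2 ?_
  filter_upwards [F.flt_mem, F.flt_le (L.isOpen_O.mem_nhds L.mem_O),
    hact (L'.isOpen_O.mem_nhds L'.mem_O), F.flt_le hV] with x hx hxL hxL' hxV
  have h3 := L.key ⟨hx.1, hxL⟩ (hxV hx.1)
  have h4 := L'.key ⟨X.toSCone.act_mem_U ht hx.1, hxL'⟩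
    (fun l => X.toSCone.act_mem_tangent t (hxV hx.1 l))
  have h5 : (Matrix.of fun l k => dpoly (F.Z k) (act X.w t x) (act X.w t (V x l))).det =
      t ^ (∑ k, F.dg k) * (Matrix.of fun l k => dpoly (F.Z k) x (V x l)).det := by
    have h6 : (Matrix.of fun l k => dpoly (F.Z k) (act X.w t x) (act X.w t (V x l))) =
        Matrix.of fun l k => t ^ F.dg k * (Matrix.of fun l k => dpoly (F.Z k) x (V x l)) l k := by
      ext l k
      simp only [Matrix.of_apply]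
      rw [dpoly_act (F.hZ k)]
    rw [h6, Matrix.det_mul_row, Finset.prod_pow_eq_pow_sum]
  rw [h5, eval_act F.hPa, eval_act F.hPb] at h4
  have h7 : t ^ F.ib ≠ 0 := pow_ne_zero _ ht
  have h8 : t ^ F.ib * eval x F.Pb ≠ 0 := mul_ne_zero h7 hx.2
  apply mul_left_cancel₀ h8
  rw [h4]
  have h9 : t ^ F.ia * t ^ (∑ k, F.dg k) = t ^ m * t ^ F.ib := by
    rw [← pow_add, ← pow_add, F.hdeg]
  linear_combination (eval x F.Pa * (Matrix.of fun l k => dpoly (F.Z k) x (V x l)).det) * h9 -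
    (t ^ m * t ^ F.ib) * h3

theorem form_holomorphic {y : Fin X.N → ℂ} (hy : y ∈ X.U) :
    ∃ (O : Set (Fin X.N → ℂ)) (ω : (Fin X.N → ℂ) → ((Fin X.N → ℂ) [⋀^Fin (n + 1)]→L[ℂ] ℂ)),
      IsOpen O ∧ y ∈ O ∧ DifferentiableOn ℂ ω O ∧
      ∀ x ∈ O ∩ X.U, ∀ v : Fin (n + 1) → (Fin X.N → ℂ), (∀ k, v k ∈ X.tangent x) →
        F.form x v = ω x v :=
  ⟨(F.rep hy).O, (F.rep hy).ω, (F.rep hy).isOpen_O, (F.rep hy).mem_O, (F.rep hy).differentiableOn_ω,
    fun _ hx _ hv => F.form_eq (F.rep hy) hx.2 hx.1 hv⟩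

/-- Nonvanishing at a point where the form is a generator. -/
theorem form_ne_zero {y : Fin X.N → ℂ} (hy : y ∈ X.U)
    (D : Fin (n + 1) → Derivation ℂ X.K X.K)
    (hD : ∀ k, ∀ f ∈ X.reg y, D k f ∈ X.reg y)
    (hne : X.iq F.Pa / X.iq F.Pb * (Matrix.of fun i k => D i (X.iq (F.Z k))).det ≠ 0)
    (hinv : (X.iq F.Pa / X.iq F.Pb * (Matrix.of fun i k => D i (X.iq (F.Z k))).det)⁻¹ ∈
      X.reg y) :
    ∃ v : Fin (n + 1) → (Fin X.N → ℂ), (∀ k, v k ∈ X.tangent y) ∧ F.form y v ≠ 0 := by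
  set L := F.rep hy with hL
  -- the matrix of `D` in the frame
  set Dm : Matrix (Fin (n + 1)) (Fin (n + 1)) X.K :=
    Matrix.of fun j i => D j (X.iq (linPoly L.c.T i)) with hDm
  have h1 : (Matrix.of fun i k => D i (X.iq (F.Z k))) =
      Dm * Matrix.of fun i k => L.Fr.D i (X.iq (F.Z k)) := by
    ext j k
    simp only [Matrix.of_apply, Matrix.mul_apply, hDm]
    have h2 : D j (X.iq (F.Z k)) =
        (∑ i, D j (X.iq (linPoly L.c.T i)) • L.Fr.D i : Derivation ℂ X.K X.K)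
          (X.iq (F.Z k)) := by
      conv_lhs => rw [L.Fr.D_gen (D j)]
    rw [h2]
    have h5 : ∀ s : Finset (Fin (n + 1)),
        (∑ i ∈ s, D j (X.iq (linPoly L.c.T i)) • L.Fr.D i : Derivation ℂ X.K X.K)
          (X.iq (F.Z k)) =
          ∑ i ∈ s, D j (X.iq (linPoly L.c.T i)) * L.Fr.D i (X.iq (F.Z k)) := by
      intro s
      induction s using Finset.induction_on with
      | empty => simp
      | insert a s ha ih =>
        rw [Finset.sum_insert ha, Finset.sum_insert ha, Derivation.add_apply, ih,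
          Derivation.smul_apply, smul_eq_mul]
    exact h5 Finset.univ
  have hdet : Dm.det ∈ X.reg y := by
    rw [Matrix.det_apply]
    refine Subring.sum_mem _ fun σ _ => ?_
    refine Subring.zsmul_mem _ ?_ _
    refine Subring.prod_mem _ fun i _ => ?_
    exact hD _ _ (X.iq_mem_reg y _)
  rw [h1, Matrix.det_mul] at hne hinv
  set G : X.K := X.iq F.Pa / X.iq F.Pb * (Matrix.of fun i k => L.Fr.D i (X.iq (F.Z k))).det
    with hG
  have hGeq : X.iq F.Pa / X.iq F.Pb *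
      (Dm.det * (Matrix.of fun i k => L.Fr.D i (X.iq (F.Z k))).det) = Dm.det * G := by
    rw [hG]
    ring
  rw [hGeq] at hne hinv
  obtain ⟨A1, B1, hB1, hdet1⟩ := hdet
  obtain ⟨A2, B2, hB2, hinv2⟩ := hinv
  have hLeq : G * X.iq L.B = X.iq L.A := L.eq
  have h3 : X.iq (B2 * B1 * L.B) = X.iq (A2 * A1 * L.A) := by
    simp only [map_mul]
    rw [← hdet1, ← hinv2, ← hLeq]
    have h4 : (Dm.det * G)⁻¹ * (Dm.det * G) = 1 := inv_mul_cancel₀ hne
    linear_combination -(X.iq B2 * X.iq B1 * X.iq L.B) * h4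
  have h4 := X.iq_inj h3 hy.2
  simp only [map_mul] at h4
  have hA : eval y L.A ≠ 0 := by
    intro h0
    rw [h0, mul_zero] at h4
    exact mul_ne_zero (mul_ne_zero hB2 hB1) L.B_ne h4
  refine ⟨fun l => fderiv ℂ L.c.ψ (L.c.T y) (Pi.single l 1), fun l => ?_, ?_⟩
  · have h5 := L.c.fderiv_mem_tangent (L.c.T_mem y ⟨hy, L.c.mem⟩) (Pi.single l 1)
    rwa [L.c.ψ_T y ⟨hy, L.c.mem⟩] at h5
  · rw [form, dif_pos hy, LocRep.ω_apply]
    have h6 : (Matrix.of fun l => L.c.T (fderiv ℂ L.c.ψ (L.c.T y) (Pi.single l 1))) = 1 := by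
      ext l k
      rw [Matrix.of_apply, L.c.T_fderiv (L.c.T_mem y ⟨hy, L.c.mem⟩), Matrix.one_apply,
        Pi.single_apply]
      simp only [eq_comm]
    rw [← hL]
    rw [h6, Matrix.det_one, mul_one]
    exact div_ne_zero hA L.B_ne

end FData

theorem nv_pt (X : PCone n) {y : Fin X.N → ℂ} (hy : y ∈ X.U) :
    Sch.GCone.NV (C := toGCone X) (X.toSCone.pt y hy.2) := by
  obtain ⟨k, hk⟩ : ∃ k, y k ≠ 0 := by
    by_contra h
    push Not at h
    exact hy.1 (funext h)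
  refine ⟨X.w k, X.w_pos k, Ideal.Quotient.mk X.I (MvPolynomial.X k),
    mk_mem_qg (isWeightedHomogeneous_X ℂ X.w k), ?_⟩
  have h2 := SCone.pt_mk X.toSCone hy.2 (MvPolynomial.X k)
  rw [eval_X] at h2
  exact fun h3 => hk (h2.symm.trans h3)

/-- From the hub: a `Gen` at a point of `U` gives form data. -/
theorem exists_fdata (X : PCone n) {m : ℕ} {y : Fin X.N → ℂ} (hy : y ∈ X.U)
    (hgen : Sch.GCone.Gen (C := toGCone X) m (X.toSCone.pt y hy.2)) :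
    ∃ F : FData X m, ∃ v : Fin (n + 1) → (Fin X.N → ℂ), (∀ k, v k ∈ X.tangent y) ∧
      F.form y v ≠ 0 := by
  obtain ⟨z, d, a, b, i, j, hz, ha, hb, hb0, hdeg, hreg, D, hD, hne, hinv⟩ := hgen
  have hz' : ∀ k, ∃ P, IsWeightedHomogeneous X.w P (d k) ∧ Ideal.Quotient.mk X.I P = z k :=
    fun k => hz k
  choose Z hZ hZz using hz'
  obtain ⟨Pa, hPa, hPaa⟩ := ha
  obtain ⟨Pb, hPb, hPbb⟩ := hb
  obtain rfl : z = fun k => Ideal.Quotient.mk X.I (Z k) := funext fun k => (hZz k).symm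
  obtain rfl : Ideal.Quotient.mk X.I Pa = a := hPaa
  obtain rfl : Ideal.Quotient.mk X.I Pb = b := hPbb
  have hPb0 : Pb ∉ X.I := fun h => hb0 (Ideal.Quotient.eq_zero_iff_mem.2 h)
  have hreg' : ∀ y ∈ X.U, ∀ D : Fin (n + 1) → Derivation ℂ X.K X.K,
    (∀ k, ∀ f ∈ X.reg y, D k f ∈ X.reg y) →
      X.iq Pa / X.iq Pb * (Matrix.of fun i k => D i (X.iq (Z k))).det ∈ X.reg y := by
    intro y' hy' D' hD'
    have h1 := hreg (X.toSCone.pt y' hy'.2) (nv_pt X hy') D' ?_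
    · exact (X.regAt_iff hy'.2).1 h1
    · intro k f hf
      exact (X.regAt_iff hy'.2).2 (hD' k f ((X.regAt_iff hy'.2).1 hf))
  let F : FData X m :=
    { Z := Z
      dg := d
      Pa := Pa
      Pb := Pb
      ia := i
      ib := j
      hZ := hZ
      hPa := hPa
      hPb := hPb
      hPb0 := hPb0
      hdeg := hdeg
      hreg := hreg' }
  refine ⟨F, F.form_ne_zero hy D (fun k f hf => ?_) hne ((X.regAt_iff hy.2).1 hinv)⟩
  exact (X.regAt_iff hy.2).1 (hD k f ((X.regAt_iff hy.2).2 hf))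

/-- `HubFujita` implies Fujita's freeness conjecture in the cone model. -/
theorem hub_imp (H : Sch.HubFujita) : FujitaFreeness := by
  intro n hn X m hm y hy
  have hU : ∀ x, x ∈ (toPCone X).U ↔ x ∈ X.U := fun x => Set.ext_iff.1 (toSCone_U X) x
  have htan : ∀ x v, v ∈ (toPCone X).tangent x ↔ v ∈ X.tangent x := fun x v =>
    SetLike.ext_iff.1 (toSCone_tangent X x) v
  have hyC : y ∈ (toPCone X).U := (hU y).2 hy
  obtain ⟨F, v, hv, hne⟩ := exists_fdata (toPCone X) hyC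
    (H n hn (toGCone (toPCone X)) m hm _ (nv_pt (toPCone X) hyC))
  refine ⟨⟨F.form, ?_, ?_⟩, v, fun k => (htan y _).1 (hv k), hne⟩
  · intro x hx
    obtain ⟨O, ω, hO, hxO, hω, h⟩ := F.form_holomorphic ((hU x).2 hx)
    exact ⟨O, ω, hO, hxO, hω, fun x' hx' v' hv' =>
      h x' ⟨hx'.1, (hU x').2 hx'.2⟩ v' (fun k => (htan x' _).2 (hv' k))⟩
  · intro t ht x hx v' hv'
    exact F.form_homogeneous ht ((hU x).2 hx) (fun k => (htan x _).2 (hv' k))

end Vale.Agent.P271.Br
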