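import Vale.Agent.P271.H741.CoreDefs

/-!
P271 (helper311), block GLOB-B, lemma OFF: a point of the cone which is not on the orbit of `φ₀` has a
neighbourhood outside of a thin tube around the orbit.
-/

set_option linter.unusedSectionVars false

open MeasureTheory Filter Topology Metric
open scoped ENNReal NNReal Vale.Agent.P271.Inst

namespace Vale.Agent.P271.Br

open Vale.Agent.P282.L2 Vale.Agent.P271.Sch Vale.Agent.P271.H741 Vale.Agent.P271.Inst

variable {n : ℕ} {C : GCone n} {φ₀ φ : C.Pt} [Algebra (Pol (n + 1)) C.K]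
  [IsScalarTower ℂ (Pol (n + 1)) C.K] [FaithfulSMul (Pol (n + 1)) C.K] {V : Cov C}
  (T : Tube V φ₀)

/-- Points which agree on the generators are equal. -/
theorem ext_gen {χ χ' : C.Pt} (h : ∀ j, χ (T.x j) = χ' (T.x j)) : χ = χ' := by
  refine AlgHom.ext_of_adjoin_eq_top T.gen ?_
  rintro _ ⟨j, rfl⟩
  exact h j

/-- A point in the tube of radius zero is on the orbit. -/
theorem orbit_of_vP (hφ : T.Good φ) (h : T.vP φ = 0) : ∃ t : ℂ, t ≠ 0 ∧ GCone.tact t φ₀ = φ := by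
  have h1 : ∀ j, T.ξP j φ = T.ξP j φ₀ := by
    intro j
    have h2 := (Finset.sum_eq_zero_iff_of_nonneg (fun i _ => by positivity)).1 h j
      (Finset.mem_univ j)
    rw [sq_eq_zero_iff, norm_eq_zero, sub_eq_zero] at h2
    exact h2
  refine ⟨T.eP φ / T.eP φ₀, div_ne_zero hφ.e_ne T.good₀.e_ne, ext_gen T fun j => ?_⟩
  rw [T.good₀.hat (T.eP φ) j, hφ.x_eq j, h1 j]

theorem continuousAt_eP' (hφ : T.Good φ) : ContinuousAt (fun χ : C.Pt => T.eP χ) φ :=
  (continuous_ev (T.x T.i1)).continuousAt.div (continuous_ev (T.x T.i0)).continuousAt hφ.1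

theorem continuousAt_ξP (hφ : T.Good φ) (j : Fin T.r) :
    ContinuousAt (fun χ : C.Pt => T.ξP j χ) φ :=
  (continuous_ev (T.x j)).continuousAt.mul
    (((continuousAt_eP' T hφ).inv₀ hφ.e_ne).pow (T.w j))

/-- The distance to the orbit is continuous at the good points. -/
theorem continuousAt_vP (hφ : T.Good φ) : ContinuousAt (fun χ : C.Pt => T.vP χ) φ := by
  have h : ∀ j ∈ (Finset.univ : Finset (Fin T.r)),
      ContinuousAt (fun χ : C.Pt => ‖T.ξP j χ - T.ξP j φ₀‖ ^ 2) φ := fun j _ =>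
    (((continuousAt_ξP T hφ j).sub continuousAt_const).norm).pow 2
  exact tendsto_finsetSum _ h

/-- A point different from the vertex has a nonzero coordinate of positive degree. -/
theorem exists_coord (hφ : GCone.NV φ) : ∃ j, 0 < T.w j ∧ φ (T.x j) ≠ 0 := by
  by_contra hcon
  push Not at hcon
  have h1 : GCone.tact 0 φ = φ := by
    refine ext_gen T fun j => ?_
    rw [GCone.tact, pact_mem C.A 0 φ (T.x_mem j)]
    rcases Nat.eq_zero_or_pos (T.w j) with h | h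
    · rw [h, pow_zero, one_mul]
    · rw [hcon j h, mul_zero]
  obtain ⟨k, hk, s, hs, h2⟩ := hφ
  apply h2
  rw [← h1, GCone.tact, pact_mem C.A 0 φ hs, zero_pow hk.ne', zero_mul]

/-- A point with a vanishing special generator is far from the tube. -/
theorem off_bad (hφ : GCone.NV φ) {i : Fin T.r}
    (h₀ : φ₀ (T.x i) ≠ 0) (h0 : φ (T.x i) = 0) :
    ∃ r1 > (0 : ℝ), ∀ᶠ χ in 𝓝 φ, T.Good χ → r1 ≤ T.vP χ := by
  obtain ⟨j0, hj0, hφj⟩ := exists_coord T hφ
  -- a neighbourhood of `φ₀`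
  set a0 := ‖φ₀ (T.x i)‖ / 2 with ha0
  have ha0' : 0 < a0 := half_pos (norm_pos_iff.2 h₀)
  set B := ‖φ₀ (T.x j0)‖ + 1 with hB
  have hB0 : 0 < B := by positivity
  have hO : {χ : C.Pt | a0 < ‖χ (T.x i)‖ ∧ ‖χ (T.x j0)‖ < B} ∈ 𝓝 φ₀ := by
    refine Filter.inter_mem ?_ ?_
    · refine (continuous_ev (T.x i)).norm.continuousAt.eventually (lt_mem_nhds ?_)
      rw [ha0]
      exact half_lt_self (norm_pos_iff.2 h₀)
    · refine (continuous_ev (T.x j0)).norm.continuousAt.eventually (gt_mem_nhds ?_)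
      rw [hB]
      exact lt_add_one _
  obtain ⟨r0, hr0, hnear⟩ := T.exists_near hO
  set η := ‖φ (T.x j0)‖ / 2 with hη
  have hη0 : 0 < η := half_pos (norm_pos_iff.2 hφj)
  set σ := min 1 (η / B) with hσ
  have hσ0 : 0 < σ := lt_min one_pos (div_pos hη0 hB0)
  have e1 : ∀ᶠ χ : C.Pt in 𝓝 φ, ‖χ (T.x i)‖ < a0 * σ ^ T.w i := by
    refine (continuous_ev (T.x i)).norm.continuousAt.eventually (gt_mem_nhds ?_)
    show ‖φ (T.x i)‖ < a0 * σ ^ T.w i
    rw [h0, norm_zero]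
    positivity
  have e2 : ∀ᶠ χ : C.Pt in 𝓝 φ, η < ‖χ (T.x j0)‖ := by
    refine (continuous_ev (T.x j0)).norm.continuousAt.eventually (lt_mem_nhds ?_)
    rw [hη]
    exact half_lt_self (norm_pos_iff.2 hφj)
  refine ⟨r0, hr0, ?_⟩
  filter_upwards [e1, e2] with χ h1 h2 hg
  by_contra hlt
  rw [not_le] at hlt
  obtain ⟨h3, h4⟩ := hnear χ hg hlt.le
  set χ' := GCone.tact (T.eP φ₀ / T.eP χ) χ with hχ'
  set s := T.eP χ / T.eP φ₀ with hs
  have h5 : ∀ j, χ (T.x j) = s ^ T.w j * χ' (T.x j) := by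
    intro j
    rw [hχ', hg.hat (T.eP φ₀) j, hg.x_eq j, ← mul_assoc, ← mul_pow, hs,
      div_mul_cancel₀ _ T.good₀.e_ne]
  have h6 : ‖s‖ < σ := by
    rw [h5 i, norm_mul, norm_pow] at h1
    have h7 : ‖s‖ ^ T.w i * a0 ≤ ‖s‖ ^ T.w i * ‖χ' (T.x i)‖ := by
      have := h3.le
      gcongr
    have h8 : ‖s‖ ^ T.w i < σ ^ T.w i := by
      have h9 : ‖s‖ ^ T.w i * a0 < σ ^ T.w i * a0 := by
        calc _ ≤ _ := h7
          _ < _ := h1
          _ = _ := mul_comm _ _
      exact lt_of_mul_lt_mul_right h9 ha0'.le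
    exact lt_of_pow_lt_pow_left₀ _ hσ0.le h8
  have h10 : ‖s‖ ^ T.w j0 ≤ ‖s‖ := by
    have := pow_le_pow_of_le_one (norm_nonneg s) (h6.le.trans (min_le_left _ _))
      (show 1 ≤ T.w j0 from hj0)
    rwa [pow_one] at this
  have h11 : ‖χ (T.x j0)‖ ≤ σ * B := by
    rw [h5 j0, norm_mul, norm_pow]
    have := h10.trans h6.le
    have := h4.le
    gcongr
  have h12 : σ * B ≤ η := by
    calc σ * B ≤ η / B * B := by
          have := min_le_right 1 (η / B)
          gcongr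
      _ = η := div_mul_cancel₀ _ hB0.ne'
  exact absurd (h2.trans_le (h11.trans h12)) (lt_irrefl _)

/-- The points near a point which is not on the orbit of `φ₀` are outside of a thin tube. -/
theorem off (hφ : GCone.NV φ) (hoff : ∀ t : ℂ, t ≠ 0 → GCone.tact t φ₀ ≠ φ) :
    ∃ r1 > (0 : ℝ), ∀ᶠ χ in 𝓝 φ, T.Good χ → r1 ≤ T.vP χ := by
  by_cases h1 : φ (T.x T.i1) = 0
  · exact off_bad T hφ T.ne1 h1
  by_cases h0 : φ (T.x T.i0) = 0
  · exact off_bad T hφ T.ne0 h0
  have hg : T.Good φ := ⟨h0, h1⟩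
  have h2 : 0 < T.vP φ := by
    refine lt_of_le_of_ne (Finset.sum_nonneg fun j _ => by positivity) fun h => ?_
    obtain ⟨t, ht, h3⟩ := orbit_of_vP T hg h.symm
    exact hoff t ht h3
  refine ⟨T.vP φ / 2, half_pos h2, ?_⟩
  filter_upwards [(continuousAt_vP T hg).eventually (lt_mem_nhds (half_lt_self h2))] with χ h3 _
  exact h3.le

end Vale.Agent.P271.Br
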