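import Vale.Agent.P271.H741.CoreDefs
import Vale.Agent.P271.H879.Cone

/-!
P271 (helper311): the local ring of a graded cone at a point: values, point derivations, and the
Jacobian of `z` in a chart.
-/

set_option linter.unusedSectionVars false

open MeasureTheory Filter Topology Metric
open scoped ENNReal NNReal Vale.Agent.P271.Inst

namespace Vale.Agent.P271.Br

open Vale.Agent.P271.Sch Vale.Agent.P271.H741 Vale.Agent.P271.Inst

variable {n : ℕ} {C : GCone n} (φ : C.Pt)

/-- The local ring at a point. -/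
def rg : Subring C.K where
  carrier := {f | GCone.RegAt φ f}
  mul_mem' := by
    rintro f g ⟨a, b, hb, h⟩ ⟨a', b', hb', h'⟩
    refine ⟨a * a', b * b', by rw [map_mul]; exact mul_ne_zero hb hb', ?_⟩
    rw [map_mul, map_mul, ← h, ← h']
    ring
  one_mem' := ⟨1, 1, by simp, by simp⟩
  add_mem' := by
    rintro f g ⟨a, b, hb, h⟩ ⟨a', b', hb', h'⟩
    refine ⟨a * b' + a' * b, b * b', by rw [map_mul]; exact mul_ne_zero hb hb', ?_⟩
    rw [map_add, map_mul, map_mul, map_mul, ← h, ← h']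
    ring
  zero_mem' := ⟨0, 1, by simp, by simp⟩
  neg_mem' := by
    rintro f ⟨a, b, hb, h⟩
    exact ⟨-a, b, hb, by rw [map_neg, ← h, neg_mul]⟩

variable {φ}

theorem mem_rg {f : C.K} : f ∈ rg φ ↔ GCone.RegAt φ f := Iff.rfl

theorem alg_mem_rg (r : C.R) : algebraMap C.R C.K r ∈ rg φ := ⟨r, 1, by simp, by simp⟩

theorem alg_inj : Function.Injective (algebraMap C.R C.K) := IsFractionRing.injective C.R C.K

theorem alg_ne {r : C.R} (h : φ r ≠ 0) : algebraMap C.R C.K r ≠ 0 := by
  intro h0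
  apply h
  have : r = 0 := alg_inj (by rw [h0, map_zero])
  rw [this, map_zero]

variable (φ)

open Classical in
/-- The value of a rational function at a point where it is regular. -/
noncomputable def vl (f : C.K) : ℂ :=
  if h : GCone.RegAt φ f then φ h.choose / φ h.choose_spec.choose else 0

variable {φ}

theorem vl_eq {f : C.K} {a b : C.R} (hb : φ b ≠ 0)
    (h : f * algebraMap C.R C.K b = algebraMap C.R C.K a) : vl φ f = φ a / φ b := by
  have hr : GCone.RegAt φ f := ⟨a, b, hb, h⟩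
  have h1 := hr.choose_spec.choose_spec
  rw [vl, dif_pos hr]
  set a' := hr.choose with ha'
  set b' := hr.choose_spec.choose with hb'
  obtain ⟨h2, h3⟩ := h1
  rw [div_eq_div_iff h2 hb, ← map_mul, ← map_mul]
  congr 1
  apply alg_inj
  rw [map_mul, map_mul, ← h, ← h3]
  ring

theorem vl_alg (r : C.R) : vl φ (algebraMap C.R C.K r) = φ r := by
  rw [vl_eq (φ := φ) (a := r) (b := 1) (by simp) (by simp), map_one, div_one]

theorem vl_mul {f g : C.K} (hf : f ∈ rg φ) (hg : g ∈ rg φ) :
    vl φ (f * g) = vl φ f * vl φ g := by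
  obtain ⟨a, b, hb, h⟩ := hf
  obtain ⟨a', b', hb', h'⟩ := hg
  rw [vl_eq hb h, vl_eq hb' h', vl_eq (a := a * a') (b := b * b')
    (by rw [map_mul]; exact mul_ne_zero hb hb') (by rw [map_mul, map_mul, ← h, ← h']; ring),
    map_mul, map_mul, mul_div_mul_comm]

theorem vl_add {f g : C.K} (hf : f ∈ rg φ) (hg : g ∈ rg φ) :
    vl φ (f + g) = vl φ f + vl φ g := by
  obtain ⟨a, b, hb, h⟩ := hf
  obtain ⟨a', b', hb', h'⟩ := hg
  rw [vl_eq hb h, vl_eq hb' h', vl_eq (a := a * b' + a' * b) (b := b * b')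
    (by rw [map_mul]; exact mul_ne_zero hb hb')
    (by rw [map_add, map_mul, map_mul, map_mul, ← h, ← h']; ring), div_add_div _ _ hb hb', map_add,
    map_mul, map_mul, map_mul]
  ring

theorem vl_one : vl φ (1 : C.K) = 1 := by
  have := vl_alg (φ := φ) 1
  rwa [map_one, map_one] at this

theorem vl_zero : vl φ (0 : C.K) = 0 := by
  have := vl_alg (φ := φ) 0
  rwa [map_zero, map_zero] at this

variable (φ)

/-- The evaluation at a point. -/
noncomputable def evR : rg φ →+* ℂ where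
  toFun f := vl φ f
  map_one' := vl_one
  map_mul' f g := vl_mul f.2 g.2
  map_zero' := vl_zero
  map_add' f g := vl_add f.2 g.2

variable {φ}

theorem vl_sub {f g : C.K} (hf : f ∈ rg φ) (hg : g ∈ rg φ) :
    vl φ (f - g) = vl φ f - vl φ g := by
  have := (evR φ).map_sub ⟨f, hf⟩ ⟨g, hg⟩
  exact this

/-- A regular function with a nonzero value is invertible. -/
theorem inv_mem_rg {f : C.K} (hf : f ∈ rg φ) (h0 : vl φ f ≠ 0) : f⁻¹ ∈ rg φ := by
  obtain ⟨a, b, hb, h⟩ := hf
  rw [vl_eq hb h] at h0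
  have ha : φ a ≠ 0 := fun h1 => h0 (by rw [h1, zero_div])
  refine ⟨b, a, ha, ?_⟩
  have hf0 : f ≠ 0 := by
    rintro rfl
    rw [zero_mul] at h
    exact alg_ne ha h.symm
  rw [← h, ← mul_assoc, inv_mul_cancel₀ hf0, one_mul]

theorem vl_ne_of_inv {f : C.K} (hf : f ∈ rg φ) (hi : f⁻¹ ∈ rg φ) (h0 : f ≠ 0) : vl φ f ≠ 0 := by
  intro h
  have := vl_mul hf hi
  rw [mul_inv_cancel₀ h0, vl_one, h, zero_mul] at this
  exact one_ne_zero this

theorem det_mem_rg {m : ℕ} {M : Matrix (Fin m) (Fin m) C.K} (hM : ∀ i j, M i j ∈ rg φ) :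
    M.det ∈ rg φ ∧ vl φ M.det = (Matrix.of fun i j => vl φ (M i j)).det := by
  set M' : Matrix (Fin m) (Fin m) (rg φ) := Matrix.of fun i j => ⟨M i j, hM i j⟩ with hM'
  have h1 : M = M'.map (rg φ).subtype := by
    ext i j
    rfl
  have h2 : M.det = ((M'.det : rg φ) : C.K) := by
    have := (RingHom.map_det (rg φ).subtype M')
    rw [h1]
    exact this.symm
  refine ⟨by rw [h2]; exact M'.det.2, ?_⟩
  have h3 := RingHom.map_det (evR φ) M'
  have h4 : evR φ M'.det = vl φ M.det := by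
    rw [h2]
    rfl
  rw [← h4, h3]
  rfl

/-! ### Point derivations -/

/-- A point derivation at `φ`. -/
structure PD (φ : C.Pt) (δ : C.R → ℂ) : Prop where
  add : ∀ r s, δ (r + s) = δ r + δ s
  mul : ∀ r s, δ (r * s) = φ r * δ s + φ s * δ r
  const : ∀ c : ℂ, δ (algebraMap ℂ C.R c) = 0

theorem PD.zero {δ : C.R → ℂ} (h : PD φ δ) : δ 0 = 0 := by
  have := h.const 0
  rwa [map_zero] at this

theorem PD.sum {δ : C.R → ℂ} (h : PD φ δ) {ι : Type*} (s : Finset ι) (f : ι → C.R) :
    δ (∑ i ∈ s, f i) = ∑ i ∈ s, δ (f i) := by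
  classical
  induction s using Finset.induction_on with
  | empty => simp [h.zero]
  | insert i s hi ih => rw [Finset.sum_insert hi, Finset.sum_insert hi, h.add, ih]

/-- A point derivation vanishing on parameters is zero. -/
theorem PD.eq_zero {δ : C.R → ℂ} (h : PD φ δ) {m : ℕ} {t : Fin m → C.R} (ht : ∀ j, φ (t j) = 0)
    (hgen : ∀ r, φ r = 0 → ∃ s, φ s ≠ 0 ∧ s * r ∈ Ideal.span (Set.range t))
    (h0 : ∀ j, δ (t j) = 0) (r : C.R) : δ r = 0 := by
  set r0 := r - algebraMap ℂ C.R (φ r) with hr0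
  have h1 : φ r0 = 0 := by rw [hr0, map_sub, AlgHom.commutes]; simp
  obtain ⟨s, hs, hsr⟩ := hgen r0 h1
  obtain ⟨g, hg⟩ := (Ideal.mem_span_range_iff_exists_fun).1 hsr
  have h2 : δ (s * r0) = 0 := by
    rw [← hg, h.sum]
    refine Finset.sum_eq_zero fun j _ => ?_
    rw [h.mul, h0 j, ht j]
    ring
  rw [h.mul, h1, zero_mul, add_zero] at h2
  have h3 : δ r0 = 0 := (mul_eq_zero.1 h2).resolve_left hs
  have h4 : r = r0 + algebraMap ℂ C.R (φ r) := by rw [hr0]; ring
  rw [h4, h.add, h3, h.const, add_zero]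

/-- The point derivation given by a regular vector field. -/
theorem pd_of_regDer {D : Derivation ℂ C.K C.K} (hD : GCone.RegDer φ D) :
    PD φ (fun r => vl φ (D (algebraMap C.R C.K r))) where
  add r s := by
    rw [map_add, map_add]
    exact vl_add (hD _ (alg_mem_rg r)) (hD _ (alg_mem_rg s))
  mul r s := by
    rw [map_mul, Derivation.leibniz, smul_eq_mul, smul_eq_mul,
      vl_add ((rg φ).mul_mem (alg_mem_rg r) (hD _ (alg_mem_rg s)))
        ((rg φ).mul_mem (alg_mem_rg s) (hD _ (alg_mem_rg r))),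
      vl_mul (alg_mem_rg r) (hD _ (alg_mem_rg s)), vl_mul (alg_mem_rg s) (hD _ (alg_mem_rg r)),
      vl_alg, vl_alg]
  const c := by
    rw [← IsScalarTower.algebraMap_apply ℂ C.R C.K, Derivation.map_algebraMap]
    exact vl_zero

/-- The partial derivatives in a chart. -/
noncomputable def pdC {m : ℕ} (c : Chart φ m) (k : Fin m) (r : C.R) : ℂ :=
  fderiv ℂ (fun y => c.ψ y r) 0 (Pi.single k 1)

theorem diffAt {m : ℕ} (c : Chart φ m) {x : Fin m → ℂ} (hx : x ∈ ball (0 : Fin m → ℂ) c.ρ)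
    (r : C.R) : DifferentiableAt ℂ (fun y => c.ψ y r) x := (c.holo r x hx).differentiableAt

theorem pd_chart {m : ℕ} (c : Chart φ m) (k : Fin m) : PD φ (pdC c k) where
  add r s := by
    have h : (fun y => c.ψ y (r + s)) = (fun y => c.ψ y r) + fun y => c.ψ y s := by
      funext y
      simp
    rw [pdC, h, fderiv_add (diffAt c c.mem0 r) (diffAt c c.mem0 s)]
    rfl
  mul r s := by
    have h : (fun y => c.ψ y (r * s)) = (fun y => c.ψ y r) * fun y => c.ψ y s := by
      funext y
      simp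
    rw [pdC, h, fderiv_mul (diffAt c c.mem0 r) (diffAt c c.mem0 s)]
    simp only [ContinuousLinearMap.add_apply, ContinuousLinearMap.smul_apply, smul_eq_mul,
      c.zero, pdC]
  const a := by
    have h : (fun y => c.ψ y (algebraMap ℂ C.R a)) = fun _ => a := by
      funext y
      simp
    rw [pdC, h, fderiv_const_apply]
    rfl

theorem pdC_t {m : ℕ} (c : Chart φ m) (k j : Fin m) :
    pdC c k (c.t j) = if j = k then 1 else 0 := by
  have h : (fun y => c.ψ y (c.t j)) =ᶠ[𝓝 0] fun y => y j := by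
    filter_upwards [ball_mem_nhds (0 : Fin m → ℂ) c.ρ_pos] with y hy
    exact c.coord y hy j
  have h2 : fderiv ℂ (fun y : Fin m → ℂ => y j) 0 = ContinuousLinearMap.proj j :=
    (ContinuousLinearMap.proj (R := ℂ) (φ := fun _ : Fin m => ℂ) j).hasFDerivAt.fderiv
  rw [pdC, h.fderiv_eq, h2, ContinuousLinearMap.proj_apply, Pi.single_apply]

theorem chart_t {m : ℕ} (c : Chart φ m) (j : Fin m) : φ (c.t j) = 0 := by
  have h := c.coord 0 c.mem0 j
  rw [c.zero] at h
  simpa using h

/-- Every point derivation is a combination of the partial derivatives in a chart. -/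
theorem PD.eq_sum {δ : C.R → ℂ} (h : PD φ δ) {m : ℕ} (c : Chart φ m)
    (hgen : ∀ r, φ r = 0 → ∃ s, φ s ≠ 0 ∧ s * r ∈ Ideal.span (Set.range c.t)) (r : C.R) :
    δ r = ∑ k, δ (c.t k) * pdC c k r := by
  have h1 : PD φ (fun r => δ r - ∑ k, δ (c.t k) * pdC c k r) := by
    refine ⟨fun r s => ?_, fun r s => ?_, fun a => ?_⟩
    · simp only [h.add, (pd_chart c _).add, mul_add, Finset.sum_add_distrib]
      ring
    · simp only [h.mul, (pd_chart c _).mul, mul_add, Finset.sum_add_distrib, mul_sub,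
        Finset.mul_sum]
      have e1 : ∀ (x : ℂ) (s : C.R), ∑ k, δ (c.t k) * (x * pdC c k s) =
          ∑ k, x * (δ (c.t k) * pdC c k s) := fun x s =>
        Finset.sum_congr rfl fun k _ => by ring
      rw [e1, e1]
      ring
    · simp [h.const, (pd_chart c _).const]
  have h2 := h1.eq_zero (chart_t c) hgen (fun j => by
    simp only [pdC_t]
    simp) r
  exact sub_eq_zero.1 h2

/-- The Jacobian of `z` with respect to regular vector fields and with respect to the chart. -/
theorem vl_jac {z : Fin (n + 1) → C.R} {D : Fin (n + 1) → Derivation ℂ C.K C.K}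
    (hD : ∀ k, GCone.RegDer φ (D k)) (c : Chart φ (n + 1))
    (hgen : ∀ r, φ r = 0 → ∃ s, φ s ≠ 0 ∧ s * r ∈ Ideal.span (Set.range c.t)) :
    GCone.jac z D ∈ rg φ ∧ vl φ (GCone.jac z D) =
      (Matrix.of fun i k => vl φ (D i (algebraMap C.R C.K (c.t k)))).det *
        (Matrix.of fun i j => fderiv ℂ (fun y => c.ψ y (z i)) 0 (Pi.single j 1)).det := by
  obtain ⟨h1, h2⟩ := det_mem_rg (φ := φ)
    (M := Matrix.of fun i j => D i (algebraMap C.R C.K (z j)))
    (fun i j => hD i _ (alg_mem_rg (z j)))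
  refine ⟨h1, ?_⟩
  rw [GCone.jac, h2, ← Matrix.det_transpose (Matrix.of fun i j => fderiv ℂ (fun y => c.ψ y (z i)) 0
    (Pi.single j 1)), ← Matrix.det_mul]
  congr 1
  ext i j
  rw [Matrix.mul_apply]
  exact (pd_of_regDer (hD i)).eq_sum c hgen (z j)

/-- The Jacobian in a chart is continuous. -/
theorem continuousAt_jc {z : Fin (n + 1) → C.R} (c : Chart φ (n + 1)) :
    ContinuousAt (fun x => (Matrix.of fun i j => fderiv ℂ (fun y => c.ψ y (z i)) x
      (Pi.single j 1)).det) 0 := by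
  have h1 : ContinuousAt (fun x => (Matrix.of fun i j : Fin (n + 1) =>
      fderiv ℂ (fun y => c.ψ y (z i)) x (Pi.single j 1))) 0 := by
    refine continuousAt_pi.2 fun i => continuousAt_pi.2 fun j => ?_
    have h2 : AnalyticAt ℂ (fderiv ℂ fun y => c.ψ y (z i)) 0 := (c.holo (z i) 0 c.mem0).fderiv
    exact h2.continuousAt.clm_apply continuousAt_const
  have h3 : Continuous (fun M : Matrix (Fin (n + 1)) (Fin (n + 1)) ℂ => M.det) :=
    Continuous.matrix_det continuous_id
  exact h3.continuousAt.comp h1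

end Vale.Agent.P271.Br
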